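import Vale.Agent.P092.H565.Lop
import Mathlib.MeasureTheory.Group.Integral
import Mathlib.MeasureTheory.Integral.Prod

/-!
P092, Theorem C (helper565): the operators
`⟪z, Th b c x⟫ = ∫ ⟪z r_y(c), r_y(b) x⟫ dy` and their properties.
-/

set_option linter.all false

open MeasureTheory Filter Topology ContinuousLinearMap
open scoped InnerProductSpace ENNReal

namespace Vale.Agent.P092.H565

open Vale.Agent.P092.H242.ThC

variable {A L : Type*} [NonUnitalRing A] [StarRing A] [Module ℂ A] [SMulCommClass ℂ A A]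
  [IsScalarTower ℂ A A] [NormedAddCommGroup L] [InnerProductSpace ℂ L] [CompleteSpace L]
  {j : A →ₗ[ℂ] L}
variable {Y : Type*} [Group Y] [TopologicalSpace Y] [IsTopologicalGroup Y]
  [SecondCountableTopology Y] [MeasurableSpace Y] [BorelSpace Y] {ν : Measure Y}
  {r : Y → A → A} {R : Y →* (L →L[ℂ] L)}

/-- the operator `x ↦ ∫ r_y(b) x r_y(c)* dy` -/
noncomputable def Th (hj : HA j) (hr : Act j r R) (hi : Itg j r ν) (b c : A) : L →L[ℂ] L :=
  adjoint ((sq_rm hj hr hi c).W (norm_nonneg _)) ∘L (sq_lm hj hr hi b).W (norm_nonneg _)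

variable (hj : HA j) (hr : Act j r R) (hi : Itg j r ν)

include hj hr hi

theorem inner_Th (b c : A) (z x : L) :
    ⟪z, Th hj hr hi b c x⟫_ℂ = ∫ y, ⟪rm hj (r y c) z, lm hj (r y b) x⟫_ℂ ∂ν := by
  unfold Th
  rw [ContinuousLinearMap.comp_apply, adjoint_inner_right]
  exact (sq_rm hj hr hi c).inner_W _ (sq_lm hj hr hi b) _ z x

theorem inner_Th_j (b c a' a : A) :
    ⟪j a', Th hj hr hi b c (j a)⟫_ℂ = ∫ y, ⟪j (a' * r y c), j (r y b * a)⟫_ℂ ∂ν := by
  rw [inner_Th]
  simp_rw [rm_j, lm_j]

theorem int_Th (b c : A) (z x : L) :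
    Integrable (fun y => ⟪rm hj (r y c) z, lm hj (r y b) x⟫_ℂ) ν :=
  (sq_rm hj hr hi c).integrable (sq_lm hj hr hi b) z x

theorem norm_Th_le (b c : A) : ‖Th hj hr hi b c‖ ≤ ‖j b‖ * ‖j c‖ := by
  unfold Th
  refine (opNorm_comp_le _ _).trans ?_
  rw [LinearIsometryEquiv.norm_map, mul_comm]
  exact mul_le_mul ((sq_lm hj hr hi b).norm_W_le _) ((sq_rm hj hr hi c).norm_W_le _)
    (norm_nonneg _) (norm_nonneg _)

theorem op_ext {S T : L →L[ℂ] L} (h : ∀ z x : L, ⟪z, S x⟫_ℂ = ⟪z, T x⟫_ℂ) : S = T :=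
  ContinuousLinearMap.ext fun x => ext_inner_left ℂ fun z => h z x

theorem Th_add_left (b b' c : A) :
    Th hj hr hi (b + b') c = Th hj hr hi b c + Th hj hr hi b' c := by
  refine op_ext hj hr hi fun z x => ?_
  rw [ContinuousLinearMap.add_apply, inner_add_right, inner_Th, inner_Th, inner_Th,
    ← integral_add (int_Th hj hr hi b c z x) (int_Th hj hr hi b' c z x)]
  refine integral_congr_ae (Eventually.of_forall fun y => ?_)
  simp only [lm_al hj hr, lm_add, ContinuousLinearMap.add_apply, map_add, inner_add_right]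

theorem Th_add_right (b c c' : A) :
    Th hj hr hi b (c + c') = Th hj hr hi b c + Th hj hr hi b c' := by
  refine op_ext hj hr hi fun z x => ?_
  rw [ContinuousLinearMap.add_apply, inner_add_right, inner_Th, inner_Th, inner_Th,
    ← integral_add (int_Th hj hr hi b c z x) (int_Th hj hr hi b c' z x)]
  refine integral_congr_ae (Eventually.of_forall fun y => ?_)
  simp only [rm_al hj hr, rm_add, ContinuousLinearMap.add_apply, map_add, inner_add_left]

theorem Th_smul_left (t : ℂ) (b c : A) :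
    Th hj hr hi (t • b) c = t • Th hj hr hi b c := by
  refine op_ext hj hr hi fun z x => ?_
  rw [ContinuousLinearMap.smul_apply, inner_smul_right, inner_Th, inner_Th,
    ← integral_const_mul]
  refine integral_congr_ae (Eventually.of_forall fun y => ?_)
  simp only [lm_al hj hr, lm_smul, ContinuousLinearMap.smul_apply, map_smul, inner_smul_right]

theorem Th_smul_right (t : ℂ) (b c : A) :
    Th hj hr hi b (t • c) = (starRingEnd ℂ) t • Th hj hr hi b c := by
  refine op_ext hj hr hi fun z x => ?_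
  rw [ContinuousLinearMap.smul_apply, inner_smul_right, inner_Th, inner_Th,
    ← integral_const_mul]
  refine integral_congr_ae (Eventually.of_forall fun y => ?_)
  simp only [rm_al hj hr, rm_smul, ContinuousLinearMap.smul_apply, map_smul, inner_smul_left]

theorem Th_star (b c : A) : adjoint (Th hj hr hi b c) = Th hj hr hi (star b) (star c) := by
  refine op_ext hj hr hi fun z x => ?_
  rw [adjoint_inner_right, ← inner_conj_symm, inner_Th, inner_Th, ← integral_conj]
  refine integral_congr_ae (Eventually.of_forall fun y => ?_)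
  simp only
  rw [inner_conj_symm, hr.st, hr.st, inner_lm' hj, star_star, lm_rm hj, inner_rm hj, star_star]

omit hi in
theorem lm_R (y w : Y) (b : A) (x : L) :
    lm hj (r y b) (R w x) = R w (lm hj (r (w⁻¹ * y) b) x) := by
  rw [U_lm hj hr, hr.act, mul_inv_cancel_left]

omit hi in
theorem rm_R (y w : Y) (b : A) (x : L) :
    rm hj (r y b) (R w x) = R w (rm hj (r (w⁻¹ * y) b) x) := by
  rw [U_rm hj hr, hr.act, mul_inv_cancel_left]

/-- `Th b c` commutes with the action `R`. -/
theorem Th_R [ν.IsMulLeftInvariant] (b c : A) (w : Y) (x : L) :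
    Th hj hr hi b c (R w x) = R w (Th hj hr hi b c x) := by
  refine ext_inner_left ℂ fun z => ?_
  have e1 : ⟪z, R w (Th hj hr hi b c x)⟫_ℂ = ⟪R w⁻¹ z, Th hj hr hi b c x⟫_ℂ := by
    rw [hr.inner_inv]
  rw [e1, inner_Th, inner_Th]
  rw [← integral_mul_left_eq_self (fun y => ⟪rm hj (r y c) z, lm hj (r y b) (R w x)⟫_ℂ) w]
  refine integral_congr_ae (Eventually.of_forall fun y => ?_)
  simp only
  rw [lm_R hj hr, inv_mul_cancel_left, rm_R hj hr y w⁻¹, inv_inv, hr.inner_inv]

section cov

variable {H : Type*} [Group H] [TopologicalSpace H] {α : H → A → A} {U : H →* (L →L[ℂ] L)}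

/-- covariance -/
theorem Th_U (hα : Act j α U) (hcomm : ∀ h y a, α h (r y a) = r y (α h a)) (b c : A) (h : H)
    (x : L) : U h (Th hj hr hi b c x) = Th hj hr hi (α h b) (α h c) (U h x) := by
  refine ext_inner_left ℂ fun z => ?_
  rw [← hα.inner_inv, inner_Th, inner_Th]
  refine integral_congr_ae (Eventually.of_forall fun y => ?_)
  simp only
  rw [← hα.inner h, U_lm hj hα, U_rm hj hα, hα.app_inv, hcomm, hcomm]

end cov

/-- the exchange formula -/
theorem Th_exch [ν.IsInvInvariant] (a a' b c : A) :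
    ⟪j a', Th hj hr hi b c (j a)⟫_ℂ = ⟪j c, Th hj hr hi (star a') (star a) (j b)⟫_ℂ := by
  rw [inner_Th_j, inner_Th_j,
    ← integral_inv_eq_self (fun y => ⟪j (c * r y (star a)), j (r y (star a') * b)⟫_ℂ)]
  refine integral_congr_ae (Eventually.of_forall fun y => ?_)
  simp only
  rw [← hr.innerj y (c * r y⁻¹ (star a)), hr.mul, hr.mul, hr.act_inv, hr.act_inv,
    hj.right (r y c) (star a), star_star, hj.left a' (r y c), mul_assoc]

end Vale.Agent.P092.H565
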