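import Mathlib.Topology.ContinuousMap.StoneWeierstrass
import Mathlib.Topology.ContinuousMap.ZeroAtInfty
import Mathlib.Topology.Compactification.OnePoint.Basic
import Mathlib.Analysis.CStarAlgebra.ContinuousMap
import Mathlib.Tactic

/-!
P092 (helper565): the Stone-Weierstrass theorem for `C₀(X, ℂ)`.
-/

open scoped ZeroAtInfty OnePoint
open Filter Topology

set_option linter.unusedSectionVars false

namespace Vale.Agent.P092.H565

variable {X : Type*} [TopologicalSpace X] [T2Space X] [LocallyCompactSpace X]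

/-- extension by zero to the one point compactification -/
noncomputable def ex (f : C₀(X, ℂ)) : C(OnePoint X, ℂ) :=
  OnePoint.continuousMapMk (f : C(X, ℂ)) 0 (by
    rw [coclosedCompact_eq_cocompact]
    exact f.zero_at_infty')

theorem ex_coe (f : C₀(X, ℂ)) (x : X) : ex f (x : OnePoint X) = f x := rfl

theorem ex_infty (f : C₀(X, ℂ)) : ex f ∞ = 0 := rfl

theorem ex_add (f g : C₀(X, ℂ)) : ex (f + g) = ex f + ex g := by
  ext x
  induction x using OnePoint.rec with
  | infty => change (0 : ℂ) = 0 + 0; rw [add_zero]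
  | coe x => rfl

theorem ex_mul (f g : C₀(X, ℂ)) : ex (f * g) = ex f * ex g := by
  ext x
  induction x using OnePoint.rec with
  | infty => change (0 : ℂ) = 0 * 0; rw [mul_zero]
  | coe x => rfl

theorem ex_smul (c : ℂ) (f : C₀(X, ℂ)) : ex (c • f) = c • ex f := by
  ext x
  induction x using OnePoint.rec with
  | infty => change (0 : ℂ) = c * 0; rw [mul_zero]
  | coe x => rfl

theorem ex_star (f : C₀(X, ℂ)) : ex (star f) = star (ex f) := by
  ext x
  induction x using OnePoint.rec with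
  | infty => change (0 : ℂ) = star 0; rw [star_zero]
  | coe x => rfl

theorem ex_zero : ex (0 : C₀(X, ℂ)) = 0 := by
  ext x
  induction x using OnePoint.rec with
  | infty => rfl
  | coe x => rfl

/-- the star subalgebra of `C(OnePoint X, ℂ)` -/
noncomputable def sa (G : Submodule ℂ C₀(X, ℂ)) (hmul : ∀ f ∈ G, ∀ g ∈ G, f * g ∈ G)
    (hstar : ∀ f ∈ G, star f ∈ G) : StarSubalgebra ℂ C(OnePoint X, ℂ) where
  carrier := {F | ∃ f ∈ G, ∃ c : ℂ, F = ex f + algebraMap ℂ C(OnePoint X, ℂ) c}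
  mul_mem' := by
    rintro _ _ ⟨f, hf, c, rfl⟩ ⟨g, hg, d, rfl⟩
    refine ⟨f * g + c • g + d • f, G.add_mem (G.add_mem (hmul f hf g hg) (G.smul_mem c hg))
      (G.smul_mem d hf), c * d, ?_⟩
    rw [ex_add, ex_add, ex_mul, ex_smul, ex_smul, Algebra.smul_def, Algebra.smul_def, map_mul]
    ring
  add_mem' := by
    rintro _ _ ⟨f, hf, c, rfl⟩ ⟨g, hg, d, rfl⟩
    refine ⟨f + g, G.add_mem hf hg, c + d, ?_⟩
    rw [ex_add, map_add]
    ring
  algebraMap_mem' := fun c => ⟨0, G.zero_mem, c, by rw [ex_zero, zero_add]⟩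
  star_mem' := by
    rintro _ ⟨f, hf, c, rfl⟩
    refine ⟨star f, hstar f hf, star c, ?_⟩
    rw [star_add, ex_star]
    congr 1

/-- **Stone-Weierstrass for `C₀`** -/
theorem dense_of_separates (G : Submodule ℂ C₀(X, ℂ)) (hmul : ∀ f ∈ G, ∀ g ∈ G, f * g ∈ G)
    (hstar : ∀ f ∈ G, star f ∈ G) (hsep : ∀ x y, x ≠ y → ∃ f ∈ G, f x ≠ f y)
    (hne : ∀ x, ∃ f ∈ G, f x ≠ 0) : Dense (G : Set C₀(X, ℂ)) := by
  have h1 : (sa G hmul hstar).topologicalClosure = ⊤ := by
    refine ContinuousMap.starSubalgebra_topologicalClosure_eq_top_of_separatesPoints _ ?_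
    have key : ∀ x : X, ∀ y : OnePoint X, (x : OnePoint X) ≠ y →
        ∃ f ∈ G, ex f (x : OnePoint X) ≠ ex f y := by
      intro x y hxy
      induction y using OnePoint.rec with
      | infty =>
        obtain ⟨f, hf, h⟩ := hne x
        exact ⟨f, hf, by rw [ex_infty, ex_coe]; exact h⟩
      | coe y =>
        obtain ⟨f, hf, h⟩ := hsep x y (fun h => hxy (by rw [h]))
        exact ⟨f, hf, by rw [ex_coe, ex_coe]; exact h⟩
    have hmem : ∀ f ∈ G, ex f ∈ sa G hmul hstar := fun f hf =>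
      ⟨f, hf, 0, by rw [map_zero, add_zero]⟩
    intro x y hxy
    induction x using OnePoint.rec with
    | infty =>
      induction y using OnePoint.rec with
      | infty => exact absurd rfl hxy
      | coe y =>
        obtain ⟨f, hf, h⟩ := key y ∞ (Ne.symm hxy)
        exact ⟨ex f, ⟨ex f, hmem f hf, rfl⟩, Ne.symm h⟩
    | coe x =>
      obtain ⟨f, hf, h⟩ := key x y hxy
      exact ⟨ex f, ⟨ex f, hmem f hf, rfl⟩, h⟩
  intro g
  rw [Metric.mem_closure_iff]
  intro ε hε
  have h2 : ex g ∈ (sa G hmul hstar).topologicalClosure := by rw [h1]; trivial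
  have h3 : ex g ∈ closure (sa G hmul hstar : Set C(OnePoint X, ℂ)) := h2
  rw [Metric.mem_closure_iff] at h3
  obtain ⟨F, ⟨f, hf, c, rfl⟩, hF⟩ := h3 (ε / 3) (by positivity)
  have h4 : ∀ x, ‖ex g x - (ex f x + c)‖ ≤ ε / 3 := fun x => by
    have h5 := (ContinuousMap.dist_apply_le_dist (f := ex g)
      (g := ex f + algebraMap ℂ C(OnePoint X, ℂ) c) x).trans hF.le
    rw [dist_eq_norm] at h5
    exact h5
  have hc : ‖c‖ ≤ ε / 3 := by
    have h5 := h4 ∞
    rw [ex_infty, ex_infty, zero_add, zero_sub, norm_neg] at h5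
    exact h5
  refine ⟨f, hf, ?_⟩
  have h6 : dist g f ≤ 2 * (ε / 3) := by
    rw [dist_eq_norm, ← ZeroAtInftyContinuousMap.norm_toBCF_eq_norm]
    refine (BoundedContinuousFunction.norm_le (by positivity)).2 fun x => ?_
    change ‖g x - f x‖ ≤ _
    have h7 := h4 (x : OnePoint X)
    rw [ex_coe, ex_coe] at h7
    have e : g x - f x = (g x - (f x + c)) + c := by ring
    rw [e]
    refine (norm_add_le _ _).trans ?_
    linarith
  linarith

end Vale.Agent.P092.H565
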