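import Mathlib.MeasureTheory.Function.ContinuousMapDense
import Mathlib.MeasureTheory.Group.Integral
import Mathlib.MeasureTheory.Integral.Bochner.Set
import Mathlib.MeasureTheory.Measure.Haar.Basic
import Mathlib.Topology.Metrizable.Urysohn
import Mathlib.Tactic

/-!
P092 (helper565): a uniformly continuous integrable function on a group vanishes at infinity.
-/

open Filter Topology MeasureTheory
open scoped Pointwise

set_option linter.unusedSectionVars false

namespace Vale.Agent.P092.H565

variable {H : Type*} [Group H] [TopologicalSpace H] [IsTopologicalGroup H]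
  [LocallyCompactSpace H] [T2Space H] [SecondCountableTopology H]
  [MeasurableSpace H] [BorelSpace H] {μ : Measure H} [μ.IsHaarMeasure]

theorem tendsto_zero_of_integrable {f : H → ℝ} (hi : Integrable f μ)
    (hu : ∀ ε > 0, ∃ U ∈ 𝓝 (1 : H), ∀ u ∈ U, ∀ h, |f (h * u) - f h| ≤ ε) (h0 : ∀ h, 0 ≤ f h) :
    Tendsto f (cocompact H) (𝓝 0) := by
  rw [Metric.tendsto_nhds]
  intro ε hε
  obtain ⟨U, hU, h1⟩ := hu (ε / 2) (by positivity)
  obtain ⟨K, hK, hKU, hKc⟩ := local_compact_nhds hU
  have hK0 : 0 < μ K := MeasureTheory.Measure.measure_pos_of_mem_nhds μ hK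
  have hKt : μ K < ⊤ := hKc.measure_lt_top
  have hKr : 0 < μ.real K := by
    rw [Measure.real]
    exact ENNReal.toReal_pos hK0.ne' hKt.ne
  obtain ⟨g, hgc, hg1, hg2, hg3⟩ := hi.exists_hasCompactSupport_integral_sub_le
    (ε := ε / 4 * μ.real K) (by positivity)
  have hC : IsCompact (tsupport g * K⁻¹) := hgc.isCompact.mul hKc.inv
  rw [Filter.Eventually, mem_cocompact]
  refine ⟨_, hC, fun h hh => ?_⟩
  have h2 : ∀ u ∈ K, g (h * u) = 0 := fun u hu' => by
    by_contra hne
    refine hh ?_
    refine ⟨h * u, subset_tsupport g hne, u⁻¹, Set.inv_mem_inv.2 hu', ?_⟩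
    simp
  have hfi : Integrable (fun u => f (h * u)) μ := hi.comp_mul_left h
  have hgi : Integrable (fun u => g (h * u)) μ := hg3.comp_mul_left h
  have hKm : MeasurableSet K := hKc.measurableSet
  have h3 : ∫ u in K, f (h * u) ∂μ ≤ ε / 4 * μ.real K := by
    calc ∫ u in K, f (h * u) ∂μ ≤ ∫ u in K, ‖f (h * u) - g (h * u)‖ ∂μ := by
          refine setIntegral_mono_on hfi.integrableOn (hfi.sub hgi).norm.integrableOn
            hKm fun u hu' => ?_
          rw [h2 u hu', sub_zero]
          exact Real.le_norm_self _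
      _ ≤ ∫ u, ‖f (h * u) - g (h * u)‖ ∂μ :=
          setIntegral_le_integral (hfi.sub hgi).norm (Eventually.of_forall fun u => norm_nonneg _)
      _ = ∫ u, ‖f u - g u‖ ∂μ := integral_mul_left_eq_self (fun u => ‖f u - g u‖) h
      _ ≤ ε / 4 * μ.real K := hg1
  have h4 : (f h - ε / 2) * μ.real K ≤ ∫ u in K, f (h * u) ∂μ := by
    have h5 : ∫ u in K, (f h - ε / 2) ∂μ = (f h - ε / 2) * μ.real K := by
      rw [setIntegral_const, smul_eq_mul, mul_comm]
    rw [← h5]
    refine setIntegral_mono_on (integrableOn_const hKt.ne) hfi.integrableOn hKm fun u hu' => ?_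
    have := h1 u (hKU hu') h
    rw [abs_le] at this
    linarith [this.1]
  have h6 : f h - ε / 2 ≤ ε / 4 := le_of_mul_le_mul_right (h4.trans h3) hKr
  change dist (f h) 0 < ε
  rw [Real.dist_eq, sub_zero, abs_of_nonneg (h0 h)]
  linarith

end Vale.Agent.P092.H565
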