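import Vale.Agent.P092.H565.Lop
import Vale.Agent.P092.H565.Van
import Vale.Agent.P092.H565.StW
import Vale.Agent.P092.H978.Prod
import Vale.Agent.P092.H242.ThCK2

/-!
P092, Theorem C (helper565): the coefficients `t ↦ ⟪c, U t b⟫` vanish at infinity and their
span is dense in `C₀(H)`.
-/

set_option linter.all false

open MeasureTheory Filter Topology ContinuousLinearMap
open scoped InnerProductSpace ENNReal ZeroAtInfty

namespace Vale.Agent.P092.H565

open Vale.Agent.P092.H242.ThC Vale.Agent.P092.H978

section van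

variable {A L : Type*} [NonUnitalRing A] [StarRing A] [Module ℂ A] [SMulCommClass ℂ A A]
  [IsScalarTower ℂ A A] [NormedAddCommGroup L] [InnerProductSpace ℂ L] [CompleteSpace L]
  {j : A →ₗ[ℂ] L}
variable {H : Type*} [Group H] [TopologicalSpace H] [IsTopologicalGroup H]
  [LocallyCompactSpace H] [T2Space H] [SecondCountableTopology H] [MeasurableSpace H]
  [BorelSpace H] {μ : Measure H} [μ.IsHaarMeasure] {α : H → A → A} {U : H →* (L →L[ℂ] L)}

theorem norm_mul_van (hj : HA j) (hα : Act j α U) (hI : Itg j α μ) (b y : A) :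
    Tendsto (fun t => ‖j (α t b * y)‖) (cocompact H) (𝓝 0) := by
  obtain ⟨C, hC0, hC⟩ := hj.bddR y
  have hn : ∀ t, ‖j (α t b * y)‖ ≤ C * ‖j b‖ := fun t => by
    rw [← hα.norm t b]; exact hC _
  have h1 : Tendsto (fun t => ‖j (α t b * y)‖ ^ 2) (cocompact H) (𝓝 0) := by
    refine tendsto_zero_of_integrable (μ := μ) (hI.int b y) (fun ε hε => ?_)
      (fun h => by positivity)
    have h2 : Tendsto (fun u => ‖j (α u b) - j b‖) (𝓝 1) (𝓝 0) := by
      rw [← tendsto_iff_norm_sub_tendsto_zero]
      have := (hα.contj b).tendsto 1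
      rw [hα.one] at this
      exact this
    have h3 : ∀ᶠ u in 𝓝 (1 : H), ‖j (α u b) - j b‖ < ε / (2 * C ^ 2 * ‖j b‖ + 1) :=
      h2.eventually (gt_mem_nhds (by positivity))
    refine ⟨_, h3, fun u hu h => ?_⟩
    have e1 : ‖j (α (h * u) b * y) - j (α h b * y)‖ ≤ C * ‖j (α u b) - j b‖ := by
      rw [← map_sub, ← sub_mul]
      refine (hC _).trans (le_of_eq ?_)
      congr 1
      rw [map_sub, ← hα.act, ← hα.coe, ← hα.coe h b, ← map_sub, hα.iso]
    have e2 : |‖j (α (h * u) b * y)‖ ^ 2 - ‖j (α h b * y)‖ ^ 2| ≤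
        (C * ‖j b‖ + C * ‖j b‖) * (C * ‖j (α u b) - j b‖) := by
      have e3 : ‖j (α (h * u) b * y)‖ ^ 2 - ‖j (α h b * y)‖ ^ 2 =
          (‖j (α (h * u) b * y)‖ + ‖j (α h b * y)‖) *
          (‖j (α (h * u) b * y)‖ - ‖j (α h b * y)‖) := by ring
      rw [e3, abs_mul]
      refine mul_le_mul ?_ ((abs_norm_sub_norm_le _ _).trans e1) (abs_nonneg _) (by positivity)
      rw [abs_of_nonneg (by positivity)]
      exact add_le_add (hn _) (hn _)
    refine e2.trans ?_
    have h4 : ‖j (α u b) - j b‖ ≤ ε / (2 * C ^ 2 * ‖j b‖ + 1) := le_of_lt hu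
    calc (C * ‖j b‖ + C * ‖j b‖) * (C * ‖j (α u b) - j b‖)
        = (2 * C ^ 2 * ‖j b‖) * ‖j (α u b) - j b‖ := by ring
      _ ≤ (2 * C ^ 2 * ‖j b‖ + 1) * (ε / (2 * C ^ 2 * ‖j b‖ + 1)) := by
          gcongr
          linarith
      _ = ε := by field_simp
  have h5 := (Real.continuous_sqrt.tendsto 0).comp h1
  rw [Real.sqrt_zero] at h5
  refine h5.congr fun t => ?_
  simp [Real.sqrt_sq (norm_nonneg _)]

/-- the coefficients vanish at infinity -/
theorem coef_van (hj : HA j) (hα : Act j α U) (hI : Itg j α μ) (b c : L) :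
    Tendsto (fun t => ⟪c, U t b⟫_ℂ) (cocompact H) (𝓝 0) := by
  refine coef_zero_at_infty (fun t => U t) (fun t v => (hα.iso t v).le) (dense2 hj hα hI)
    (fun b hb c hc => ?_) b c
  have hb' : ∃ b₀, b = j b₀ := by
    induction hb using Submodule.span_induction with
    | mem b hb =>
      obtain ⟨x, y, rfl⟩ := hb
      exact ⟨_, rfl⟩
    | zero => exact ⟨0, by rw [map_zero]⟩
    | add x y _ _ h1 h2 =>
      obtain ⟨x, rfl⟩ := h1
      obtain ⟨y, rfl⟩ := h2
      exact ⟨x + y, by rw [map_add]⟩
    | smul z x _ h1 =>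
      obtain ⟨x, rfl⟩ := h1
      exact ⟨z • x, by rw [map_smul]⟩
  obtain ⟨b₀, rfl⟩ := hb'
  simp only [hα.coe]
  induction hc using Submodule.span_induction with
  | mem c hc =>
    obtain ⟨x, y, rfl⟩ := hc
    have h1 := (norm_mul_van hj hα hI b₀ (star y)).const_mul ‖j x‖
    rw [mul_zero] at h1
    refine squeeze_zero_norm (fun t => ?_) h1
    rw [hj.right]
    exact norm_inner_le_norm _ _
  | zero =>
    simp only [inner_zero_left]
    exact tendsto_const_nhds
  | add x y _ _ h1 h2 =>
    simp only [inner_add_left]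
    simpa using h1.add h2
  | smul z x _ h1 =>
    simp only [inner_smul_left]
    simpa using h1.const_mul ((starRingEnd ℂ) z)

end van

section dens

variable {A L : Type*} [NonUnitalRing A] [StarRing A] [Module ℂ A] [SMulCommClass ℂ A A]
  [IsScalarTower ℂ A A] [NormedAddCommGroup L] [InnerProductSpace ℂ L] [CompleteSpace L]
  {j : A →ₗ[ℂ] L}
variable {H : Type*} [Group H] [TopologicalSpace H] [IsTopologicalGroup H]
  [LocallyCompactSpace H] [T2Space H] [MeasurableSpace H]
  {μ : Measure H} {α : H → A → A} {U : H →* (L →L[ℂ] L)}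
variable {Y : Type*} [Group Y] [TopologicalSpace Y] [SecondCountableTopology Y]
  [MeasurableSpace Y] [OpensMeasurableSpace Y] {ν : Measure Y}
  {r : Y → A → A} {R : Y →* (L →L[ℂ] L)}

/-- closedness of the closed span under products -/
theorem mul_mem_cl {B : Type*} [NonUnitalCStarAlgebra B] {P : Set B}
    (hmul : ∀ x ∈ P, ∀ y ∈ P, x * y ∈ (Submodule.span ℂ P).topologicalClosure) :
    ∀ x ∈ (Submodule.span ℂ P).topologicalClosure,
      ∀ y ∈ (Submodule.span ℂ P).topologicalClosure,
        x * y ∈ (Submodule.span ℂ P).topologicalClosure := by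
  set G := (Submodule.span ℂ P).topologicalClosure with hG
  have hcl : IsClosed (G : Set B) := Submodule.isClosed_topologicalClosure _
  have h1 : ∀ x ∈ P, ∀ y ∈ Submodule.span ℂ P, x * y ∈ G := by
    intro x hx y hy
    induction hy using Submodule.span_induction with
    | mem y hy => exact hmul x hx y hy
    | zero => rw [mul_zero]; exact G.zero_mem
    | add y z _ _ h1 h2 => rw [mul_add]; exact G.add_mem h1 h2
    | smul c y _ h1 => rw [mul_smul_comm]; exact G.smul_mem c h1
  have h2 : ∀ x ∈ Submodule.span ℂ P, ∀ y ∈ Submodule.span ℂ P, x * y ∈ G := by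
    intro x hx y hy
    induction hx using Submodule.span_induction with
    | mem x hx => exact h1 x hx y hy
    | zero => rw [zero_mul]; exact G.zero_mem
    | add x z _ _ h1 h2 => rw [add_mul]; exact G.add_mem h1 h2
    | smul c x _ h1 => rw [smul_mul_assoc]; exact G.smul_mem c h1
  have h3 : ∀ x ∈ Submodule.span ℂ P, ∀ y ∈ G, x * y ∈ G := by
    intro x hx y hy
    have : IsClosed {y : B | x * y ∈ G} := hcl.preimage (continuous_const.mul continuous_id)
    exact closure_minimal (fun y hy => h2 x hx y hy) this hy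
  intro x hx y hy
  have : IsClosed {x : B | x * y ∈ G} := hcl.preimage (continuous_id.mul continuous_const)
  exact closure_minimal (fun x hx => h3 x hx y hy) this hx

theorem zero_ThF (j : A →ₗ[ℂ] L) (r : Y → A → A) (ν : Measure Y) :
    ThF j r ν (fun _ _ => (0 : ℂ →L[ℂ] ℂ)) where
  add_left := fun _ _ _ => by rw [add_zero]
  smul_left := fun _ _ _ => by rw [smul_zero]
  add_right := fun _ _ _ => by rw [add_zero]
  smul_right := fun _ _ _ => by rw [smul_zero]
  bdd := fun b c => by rw [norm_zero]; positivity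
  adj := fun _ _ => by rw [map_zero]
  prod := fun _ _ _ _ x z => by simp

/-- **density of the coefficients** -/
theorem dense_ph (P : Pk j α U μ r R ν)
    (h0 : ∀ b c : L, Tendsto (fun t => ⟪c, U t b⟫_ℂ) (cocompact H) (𝓝 0))
    (hne : ∃ a, j a ≠ 0) (hf : ∀ h, (∀ a, j (α h a) = j a) → h = 1) :
    Dense (Submodule.span ℂ (Set.range fun p : A × A => ph P h0 p.1 p.2) : Set C₀(H, ℂ)) := by
  set S := Set.range fun p : A × A => ph P h0 p.1 p.2 with hS
  have hprod : ∀ x ∈ S, ∀ y ∈ S, x * y ∈ (Submodule.span ℂ S).topologicalClosure := by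
    rintro _ ⟨⟨b, c⟩, rfl⟩ _ ⟨⟨b', c'⟩, rfl⟩
    have h1 := prod_mem P h0 (zero_ThF j r ν) b c b' c'
    have h2 : ∀ x ∈ Submodule.span ℂ (prs P h0 (fun _ _ => (0 : ℂ →L[ℂ] ℂ))),
        x.1 ∈ (Submodule.span ℂ S : Set C₀(H, ℂ)) := by
      intro x hx
      induction hx using Submodule.span_induction with
      | mem x hx =>
        obtain ⟨b, c, rfl⟩ := hx
        exact Submodule.subset_span ⟨(b, c), rfl⟩
      | zero => exact Submodule.zero_mem _
      | add x y _ _ h1 h2 => exact Submodule.add_mem _ h1 h2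
      | smul z x _ h1 => exact Submodule.smul_mem _ z h1
    exact map_mem_closure (f := fun x : C₀(H, ℂ) × (ℂ →L[ℂ] ℂ) => x.1) continuous_fst h1 h2
  have hst : ∀ x ∈ (Submodule.span ℂ S).topologicalClosure,
      star x ∈ (Submodule.span ℂ S).topologicalClosure := by
    have h1 : ∀ x ∈ Submodule.span ℂ S, star x ∈ Submodule.span ℂ S := by
      intro x hx
      induction hx using Submodule.span_induction with
      | mem x hx =>
        obtain ⟨⟨b, c⟩, rfl⟩ := hx
        refine Submodule.subset_span ⟨(star b, star c), ?_⟩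
        exact (star_ph P h0 b c).symm
      | zero => rw [star_zero]; exact Submodule.zero_mem _
      | add x y _ _ h1 h2 => rw [star_add]; exact Submodule.add_mem _ h1 h2
      | smul z x _ h1 => rw [star_smul]; exact Submodule.smul_mem _ _ h1
    intro x hx
    exact map_mem_closure continuous_star hx h1
  have key : Dense ((Submodule.span ℂ S).topologicalClosure : Set C₀(H, ℂ)) := by
    refine dense_of_separates _ (mul_mem_cl hprod) hst ?_ ?_
    · intro x y hxy
      by_contra hcon
      push Not at hcon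
      refine hxy ?_
      have h1 : ∀ b c, ⟪j c, j (α x b)⟫_ℂ = ⟪j c, j (α y b)⟫_ℂ := fun b c => by
        have := hcon (ph P h0 b c) (Submodule.le_topologicalClosure _
          (Submodule.subset_span ⟨(b, c), rfl⟩))
        rw [ph_apply, ph_apply] at this
        exact this
      have h2 : ∀ b, j (α x b) = j (α y b) := fun b => by
        refine ext_inner_left ℂ fun v => ?_
        induction v using P.ha.dense.induction_on with
        | hp =>
          exact isClosed_eq (continuous_id.inner continuous_const)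
            (continuous_id.inner continuous_const)
        | ih c => exact h1 b c
      have h3 : y⁻¹ * x = 1 := by
        refine hf _ fun a => ?_
        rw [← P.actH.act, ← P.actH.coe, h2, P.actH.coe, P.actH.inv_act]
      exact (inv_mul_eq_one.1 h3).symm
    · intro x
      by_contra hcon
      push Not at hcon
      obtain ⟨a, ha⟩ := hne
      refine ha ?_
      have h1 : ∀ c, ⟪j c, j (α x a)⟫_ℂ = 0 := fun c => by
        have := hcon (ph P h0 a c) (Submodule.le_topologicalClosure _
          (Submodule.subset_span ⟨(a, c), rfl⟩))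
        rw [ph_apply] at this
        exact this
      have h2 : j (α x a) = 0 := by
        have := h1 (α x a)
        rwa [inner_self_eq_zero] at this
      have h3 := P.actH.norm x a
      rw [h2, norm_zero] at h3
      exact norm_eq_zero.1 h3.symm
  have h4 : (Submodule.span ℂ S).topologicalClosure.topologicalClosure =
      (Submodule.span ℂ S).topologicalClosure :=
    (Submodule.isClosed_topologicalClosure _).submodule_topologicalClosure_eq
  intro f
  have h5 : f ∈ closure ((Submodule.span ℂ S).topologicalClosure : Set C₀(H, ℂ)) := key f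
  rw [Submodule.topologicalClosure_coe, closure_closure] at h5
  exact h5

end dens

end Vale.Agent.P092.H565
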