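import Vale.Agent.P092.H565.Fun
import Vale.Agent.P092.H565.QEq
import Vale.Agent.P092.H565.Phi
import Vale.Agent.P092.H720.C1

/-!
P092 (helper565), project Q, block [Q-C3]: different source places, `c3Stmt : Q.C3Stmt`.
-/

set_option linter.all false

open scoped InnerProductSpace Topology ENNReal NNReal ZeroAtInfty
open Filter ContinuousLinearMap MeasureTheory
open Vale.Agent.P092.H160
open Vale.Agent.P092.H156.Sm
open Vale.Agent.P092.H650

namespace Vale.Agent.P092.H565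

open Vale.Agent.P092.H715.Q Vale.Agent.P092.H720 Vale.Agent.P092.H796
open Vale.Agent.P092.H100.QPsi
open Vale.Agent.P092.H242.ThC
open Vale.Agent.P092.H978 (ph ph_apply cjF cjF_apply)
open Vale.Agent.P092.H821 (norm_cjF_le)

section abs

variable {H H' : Type} [Group H] [TopologicalSpace H] [IsTopologicalGroup H]
  [TopologicalSpace H'] {Λ : H' → (C₀(H, ℂ) →L[ℂ] ℂ)} {C : ℝ} {S : Set C₀(H, ℂ)}

omit [Group H] [IsTopologicalGroup H] in
/-- continuity from a set with dense span -/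
theorem cont_of_dense (hb : ∀ h g, ‖Λ h g‖ ≤ C * ‖g‖)
    (hS : Dense (Submodule.span ℂ S : Set C₀(H, ℂ)))
    (hc : ∀ g ∈ S, Continuous fun h => Λ h g) (g : C₀(H, ℂ)) : Continuous fun h => Λ h g := by
  have h1 : ∀ g ∈ Submodule.span ℂ S, Continuous fun h => Λ h g := by
    intro g hg
    induction hg using Submodule.span_induction with
    | mem g hg => exact hc g hg
    | zero => simp only [map_zero]; exact continuous_const
    | add g g' _ _ h1 h2 => simp only [map_add]; exact h1.add h2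
    | smul c g _ h1 => simp only [map_smul]; exact h1.const_smul c
  rw [continuous_iff_continuousAt]
  intro h₀
  rw [Metric.continuousAt_iff']
  intro ε hε
  set B := max C 0 with hB
  have hB0 : 0 ≤ B := le_max_right _ _
  obtain ⟨g', hg', hd⟩ := Metric.mem_closure_iff.1 (hS g) (ε / (4 * (B + 1))) (by positivity)
  filter_upwards [Metric.continuousAt_iff'.1 (h1 g' hg').continuousAt (ε / 4) (by positivity)]
    with h hh
  rw [dist_eq_norm] at hh hd ⊢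
  have h2 : ∀ h, ‖Λ h (g - g')‖ ≤ ε / 4 := fun h => by
    have h3 : ‖Λ h (g - g')‖ ≤ (B + 1) * (ε / (4 * (B + 1))) :=
      (hb _ _).trans (mul_le_mul (by linarith [le_max_left C 0]) hd.le (norm_nonneg _) (by linarith))
    refine h3.trans (le_of_eq ?_)
    field_simp
  have e : Λ h g - Λ h₀ g = (Λ h g' - Λ h₀ g') + (Λ h (g - g') - Λ h₀ (g - g')) := by
    rw [map_sub, map_sub]; ring
  rw [e]
  have h3 := norm_add_le (Λ h g' - Λ h₀ g') (Λ h (g - g') - Λ h₀ (g - g'))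
  have h4 := norm_sub_le (Λ h (g - g')) (Λ h₀ (g - g'))
  linarith [h2 h, h2 h₀]

theorem continuous_cjF_fun (s : H) : Continuous (cjF s : C₀(H, ℂ) → C₀(H, ℂ)) := by
  rw [Metric.continuous_iff]
  intro f ε hε
  refine ⟨ε, hε, fun g hg => lt_of_le_of_lt ?_ hg⟩
  rw [dist_eq_norm, dist_eq_norm]
  have e : cjF s g - cjF s f = cjF s (g - f) := by ext t; rfl
  rw [e]
  exact norm_cjF_le _ _

/-- equality of `L ∘ cjF s` and `L'` from a set with dense span -/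
theorem cov_of_dense' {L L' : C₀(H, ℂ) →L[ℂ] ℂ} (s : H)
    (hS : Dense (Submodule.span ℂ S : Set C₀(H, ℂ))) (h : ∀ g ∈ S, L (cjF s g) = L' g)
    (g : C₀(H, ℂ)) : L (cjF s g) = L' g := by
  refine hS.induction (P := fun g => L (cjF s g) = L' g) ?_ ?_ g
  · intro f hf
    induction hf using Submodule.span_induction with
    | mem f hf => exact h f hf
    | zero =>
      have e : cjF s (0 : C₀(H, ℂ)) = 0 := by ext t; rfl
      rw [e, map_zero, map_zero]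
    | add f g _ _ h1 h2 =>
      have e : cjF s (f + g) = cjF s f + cjF s g := by ext t; rfl
      rw [e, map_add, map_add, h1, h2]
    | smul c f _ h1 =>
      have e : cjF s (c • f) = c • cjF s f := by ext t; rfl
      rw [e, map_smul, map_smul, h1]
  · exact isClosed_eq (L.continuous.comp (continuous_cjF_fun s)) L'.continuous

end abs

section form

variable {X G G' K : Type} [Group X] [Countable X] [Group G] [Group G']
  [TopologicalSpace G] [TopologicalSpace G'] [IsTopologicalGroup G] [IsTopologicalGroup G']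
  [MeasurableSpace G] [BorelSpace G] [SecondCountableTopology G]
  [MeasurableSpace G'] [BorelSpace G'] [SecondCountableTopology G']
  [NormedAddCommGroup K] [InnerProductSpace ℂ K] [CompleteSpace K]
  {ρ : X →* (K →L[ℂ] K)} {ω : K} {ι : X →* G} {ι' : X →* G'}
  {μ : Measure G} {μ' : Measure G'} [SFinite μ] [SFinite μ']
  {b c : G → K →L[ℂ] K} {x x' : G' → K →L[ℂ] K}
  [μ.IsMulLeftInvariant] [μ'.IsMulLeftInvariant]

/-- the difference of two values of the form -/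
theorem norm_q_sub_le {B C : ℝ≥0∞} (h : RegRep ρ ω) (hc : Fd ι ρ c) (hb : Fd ι ρ b)
    (hx : Fd ι' ρ x) (hx2 : L2 ω μ' x) (hx' : Fd ι' ρ x') (hx2' : L2 ω μ' x')
    (hic : Iso μ (fun y => adjoint (c y)) C) (hC : C ≠ ∞) (hib : Iso μ b B) (hB : B ≠ ∞) :
    ‖q ω μ μ' x c b - q ω μ μ' x' c b‖ ≤
      Real.sqrt (C * nsq ω μ' (fun u => x u - x' u)).toReal * Real.sqrt (B * nsq ω μ' x).toReal +
      Real.sqrt (C * nsq ω μ' x').toReal *
        Real.sqrt (B * nsq ω μ' (fun u => x u - x' u)).toReal := by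
  have hd := hx.sub hx'
  have hd2 : L2 ω μ' (fun u => x u - x' u) := hx2.sub hx2'
  have l1 := H100Q.l2_xc (μ := μ) h hc hd hic hC hd2
  have l2 := H100Q.l2_xc (μ := μ) h hc hx' hic hC hx2'
  have l3 := H100Q.l2_bx (μ := μ) hb.continuous hx.continuous hib hB hx2
  have l4 := H100Q.l2_bx (μ := μ) hb.continuous hd.continuous hib hB hd2
  have l5 := H100Q.l2_bx (μ := μ) hb.continuous hx'.continuous hib hB hx2'
  have e1 : (fun z : G × G' => x z.2 * c z.1) =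
      fun z => (x z.2 - x' z.2) * c z.1 + x' z.2 * c z.1 := by
    funext z; rw [sub_mul, sub_add_cancel]
  have e2 : (fun z : G × G' => b z.1 * x z.2) =
      fun z => b z.1 * (x z.2 - x' z.2) + b z.1 * x' z.2 := by
    funext z; rw [mul_sub, sub_add_cancel]
  have e3 : q ω μ μ' x c b - q ω μ μ' x' c b =
      ip ω (μ.prod μ') (fun z => (x z.2 - x' z.2) * c z.1) (fun z => b z.1 * x z.2) +
      ip ω (μ.prod μ') (fun z => x' z.2 * c z.1) (fun z => b z.1 * (x z.2 - x' z.2)) := by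
    rw [H100Q.q_eq_ip, H100Q.q_eq_ip, e1, ip_add_left l1 l2 l3]
    have e4 : ip ω (μ.prod μ') (fun z => x' z.2 * c z.1) (fun z => b z.1 * x z.2) =
        ip ω (μ.prod μ') (fun z => x' z.2 * c z.1) (fun z => b z.1 * (x z.2 - x' z.2)) +
        ip ω (μ.prod μ') (fun z => x' z.2 * c z.1) (fun z => b z.1 * x' z.2) := by
      rw [e2, ip_add_right l2 l4 l5]
    rw [e4]
    ring
  have hn : ∀ {u v : G × G' → K →L[ℂ] K}, L2 ω (μ.prod μ') u → L2 ω (μ.prod μ') v →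
      ‖ip ω (μ.prod μ') u v‖ ≤ Real.sqrt (nsq ω (μ.prod μ') u).toReal *
        Real.sqrt (nsq ω (μ.prod μ') v).toReal := fun {u v} hu hv => by
    rw [← Real.sqrt_mul ENNReal.toReal_nonneg]
    exact Real.le_sqrt_of_sq_le (norm_ip_le hu hv)
  rw [e3]
  refine (norm_add_le _ _).trans (add_le_add ((hn l1 l3).trans (le_of_eq ?_))
    ((hn l2 l4).trans (le_of_eq ?_)))
  · rw [H100Q.nsq_xc h hc hd hic, H100Q.nsq_bx hb.continuous hx.continuous hib]
  · rw [H100Q.nsq_xc h hc hx' hic, H100Q.nsq_bx hb.continuous hd.continuous hib]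

/-- the form is invariant under conjugation -/
theorem q_conj {Γ : Type} [Group Γ] {V : Γ →* (K →L[ℂ] K)} {B C : ℝ≥0∞} (h : Frm ρ V ω)
    (hc : Fd ι ρ c) (hb : Fd ι ρ b) (hx : Fd ι' ρ x) (hx2 : L2 ω μ' x)
    (hic : Iso μ (fun y => adjoint (c y)) C) (hC : C ≠ ∞) (hib : Iso μ b B) (hB : B ≠ ∞) (v : Γ) :
    q ω μ μ' (fun u => V v * x u * V v⁻¹) (fun y => V v * c y * V v⁻¹)
      (fun y => V v * b y * V v⁻¹) = q ω μ μ' x c b := by
  have l2 := H100Q.l2_xc (μ := μ) h.reg hc hx hic hC hx2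
  have l3 := H100Q.l2_bx (μ := μ) hb.continuous hx.continuous hib hB hx2
  have f2 := H100Q.fd_xc (ι := ι) (ι' := ι') hc hx
  have f3 := H100Q.fd_bx (ι := ι) (ι' := ι') hb hx
  have cj : ∀ S T : K →L[ℂ] K, V v * (S * T) * V v⁻¹ = (V v * S * V v⁻¹) * (V v * T * V v⁻¹) := by
    intro S T
    calc V v * (S * T) * V v⁻¹ = V v * S * 1 * (T * V v⁻¹) := by simp only [mul_one, mul_assoc]
      _ = V v * S * (V v⁻¹ * V v) * (T * V v⁻¹) := by rw [h.inv_mul]
      _ = _ := by simp only [mul_assoc]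
  have e := ip_conj (μ := μ.prod μ') h f2 f3 l2 l3 v
  rw [H100Q.q_eq_ip, H100Q.q_eq_ip, ← e]
  unfold ip
  refine integral_congr_ae (Eventually.of_forall fun z => ?_)
  simp only
  rw [cj, cj]

end form

section glue

variable {Γ X Y G G' H H' K : Type} [Group Γ] [Group X] [Group Y] [Group G] [Group G'] [Group H]
  [Group H'] [Countable X] [Countable Y]
  [TopologicalSpace G] [TopologicalSpace H] [IsTopologicalGroup G] [IsTopologicalGroup H]
  [TopologicalSpace G'] [IsTopologicalGroup G'] [TopologicalSpace H'] [IsTopologicalGroup H']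
  [MeasurableSpace G] [BorelSpace G] [SecondCountableTopology G]
  [MeasurableSpace G'] [BorelSpace G'] [SecondCountableTopology G']
  [MeasurableSpace H] [BorelSpace H] [SecondCountableTopology H]
  [NormedAddCommGroup K] [InnerProductSpace ℂ K] [CompleteSpace K]
  {V W : Γ →* (K →L[ℂ] K)} {f : X →* Γ} {ρ : X →* (K →L[ℂ] K)} {f' : Y →* Γ}
  {ρ' : Y →* (K →L[ℂ] K)} {ω : K} {ι' : X →* G'}
  {p : Γ →* G} {κ : Γ →* H} {κ' : Γ →* H'} {x : G' → K →L[ℂ] K}
  {μ : Measure G} {μ' : Measure G'} {ν : Measure H}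
  [SFinite μ] [SFinite μ'] [μ.IsMulLeftInvariant] [μ'.IsMulLeftInvariant]
  [μ.IsMulRightInvariant] [SFinite ν] [ν.IsMulLeftInvariant] [ν.IsMulRightInvariant]

/-- **the positive functional of a field `x`** -/
theorem exists_Lam [LocallyCompactSpace H] [T2Space H] (D : Dbl V W f ρ f' ρ' ω)
    (hκ : DenseRange κ)
    (hp : DenseRange p) (h1 : F1 (p.comp f) κ ρ V ω μ) (h2 : F1 (κ.comp f') p ρ' W ω ν) {c' : ℝ≥0}
    [(c' • ν).IsHaarMeasure] {U : H →* (LL D hκ p μ ν →L[ℂ] LL D hκ p μ ν)}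
    {R : G →* (LL D hκ p μ ν →L[ℂ] LL D hκ p μ ν)}
    (P : Pk (jj D hκ p μ ν) (aT D hκ μ ν) U (c' • ν) (rT D hκ hp μ ν) R μ)
    (faith : ∀ h : H, (∀ a, jj D hκ p μ ν (aT D hκ μ ν h a) = jj D hκ p μ ν a) → h = 1)
    (hne : ∃ a, jj D hκ p μ ν a ≠ 0)
    (h0 : ∀ b c : LL D hκ p μ ν, Tendsto (fun t => ⟪c, U t b⟫_ℂ) (cocompact H) (𝓝 0))
    (hx : Fd ι' ρ x) (hx2 : L2 ω μ' x) :
    ∃ Λ : C₀(H, ℂ) →L[ℂ] ℂ, (∀ b c : TA D hκ p μ ν, Λ (ph P h0 b c) =
      q ω μ μ' x (c : G → K →L[ℂ] K) (b : G → K →L[ℂ] K)) ∧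
      (∀ g, ‖Λ g‖ ≤ (nsq ω μ' x).toReal * ‖g‖) ∧ PosF Λ := by
  obtain ⟨Ψ, hΨ, -⟩ := Vale.Agent.P092.H100Q.exists_psi D hκ μ μ' ν h1 hx hx2
  have hR := fun y ξ => Vale.Agent.P092.H100Q.psi_comm D hκ hp μ μ' ν hΨ P.actY y ξ
  obtain ⟨F, m, hF1, hF2, hF3, hm, hlim⟩ := weak_approx P faith hne hR
    (posOp_q D hκ hp h1 h2 P.actH P.itgH hne hx hx2 hΨ)
  have hl : ∀ b c : TA D hκ p μ ν, Tendsto (fun n => ∫ h, (F n h : ℂ) * ph P h0 b c h ∂(c' • ν))
      atTop (𝓝 (q ω μ μ' x (c : G → K →L[ℂ] K) (b : G → K →L[ℂ] K))) := fun b c => by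
    have h3 := hlim (jj D hκ p μ ν b) (jj D hκ p μ ν c)
    rw [hΨ] at h3
    refine h3.congr fun n => ?_
    refine integral_congr_ae (Eventually.of_forall fun h => ?_)
    simp only
    rw [ph_apply, P.actH.coe]
  obtain ⟨Λ, hΛ, hb, hpos⟩ := exists_fun (dense_ph P h0 hne faith) F hF1 hF2 hF3 hm (by
    rintro _ ⟨⟨b, c⟩, rfl⟩
    exact ⟨_, hl b c⟩)
  exact ⟨Λ, fun b c => tendsto_nhds_unique (hΛ _) (hl b c), hb, hpos⟩

omit [IsTopologicalGroup H'] in
theorem sqrt_nsq {B : ℝ≥0∞} {x : G' → K →L[ℂ] K} (hx : L2 ω μ' x) :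
    Real.sqrt (B * nsq ω μ' x).toReal =
      Real.sqrt B.toReal * ‖MemLp.toLp (fun u => x u ω) hx‖ := by
  rw [ENNReal.toReal_mul, Real.sqrt_mul ENNReal.toReal_nonneg, ← Vale.Agent.P092.H156.Sm.norm_toLp_sq hx,
    Real.sqrt_sq (norm_nonneg _)]

/-- `h ↦ q (α_h x) c b` is continuous -/
theorem continuous_q_al (hF : Frm ρ V ω) (hκ' : DenseRange κ') {ι : X →* G}
    (hx : Smo ι' κ' ρ V ω μ' x) {c b : G → K →L[ℂ] K} (hc : Fd ι ρ c) (hb : Fd ι ρ b)
    {B C : ℝ≥0∞} (hic : Iso μ (fun y => adjoint (c y)) C) (hC : C ≠ ∞) (hib : Iso μ b B)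
    (hB : B ≠ ∞) : Continuous fun h => q ω μ μ' (al κ' V h x) c b := by
  rw [continuous_iff_continuousAt]
  intro h₀
  rw [ContinuousAt, tendsto_iff_norm_sub_tendsto_zero]
  set v : H' → Lp K 2 μ' := fun h => vec (smo_al hF hκ' hx h) with hv
  have hvc : Continuous v := continuous_vec_al hF hκ' hx
  have hvn : ∀ h, ‖v h‖ = ‖vec hx‖ := fun h => norm_vec_al hF hκ' hx h
  have hlim : Tendsto (fun h => Real.sqrt C.toReal * ‖v h - v h₀‖ * (Real.sqrt B.toReal * ‖vec hx‖) +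
      Real.sqrt C.toReal * ‖vec hx‖ * (Real.sqrt B.toReal * ‖v h - v h₀‖)) (𝓝 h₀) (𝓝 0) := by
    have h1 : Tendsto (fun h => ‖v h - v h₀‖) (𝓝 h₀) (𝓝 0) := by
      rw [← tendsto_iff_norm_sub_tendsto_zero]
      exact hvc.continuousAt
    have h2 := ((h1.const_mul (Real.sqrt C.toReal)).mul_const (Real.sqrt B.toReal * ‖vec hx‖)).add
      ((h1.const_mul (Real.sqrt B.toReal)).const_mul (Real.sqrt C.toReal * ‖vec hx‖))
    simpa using h2
  refine squeeze_zero (fun _ => norm_nonneg _) (fun h => ?_) hlim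
  have s1 := smo_al hF hκ' hx h
  have s2 := smo_al hF hκ' hx h₀
  have h3 := norm_q_sub_le (μ := μ) hF.reg hc hb s1.toFd s1.l2 s2.toFd s2.l2 hic hC hib hB
  have hd : L2 ω μ' (fun u => al κ' V h x u - al κ' V h₀ x u) := s1.l2.sub s2.l2
  rw [sqrt_nsq s1.l2, sqrt_nsq s2.l2, sqrt_nsq hd, sqrt_nsq hd] at h3
  have e1 : MemLp.toLp (fun u => (al κ' V h x u - al κ' V h₀ x u) ω) hd = v h - v h₀ := by
    rw [hv]
    exact vec_sub s1 s2
  have e2 : ‖MemLp.toLp (fun u => al κ' V h x u ω) s1.l2‖ = ‖vec hx‖ := hvn h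
  have e3 : ‖MemLp.toLp (fun u => al κ' V h₀ x u ω) s2.l2‖ = ‖vec hx‖ := hvn h₀
  rw [e1, e2, e3] at h3
  exact h3

end glue

/-- **[Q-C3]** -/
theorem c3Stmt : Vale.Agent.P092.Q.C3Stmt := by
  intro Γ X Y K G G' H H' E _ _ _ _ _ _ _ _ _ _ _ _ _ _ _ _ _ _ _ _ _ _ _ _ _ _ _ _ _ _ _ _ _ _
    _ _ _ _ _ _ _ _ _ _ _ _ _ V W f ρ f' ρ' ω p κ κ' ι' Q π₁ π₂ μ _ _ μ' _ _ ν _ _ m D hp hκ hκ'
    hι' hG hH c1 c2 hsec e1 e2 hm h1 h2 h3 hne a b ha hb x y
  haveI : μ.IsInvInvariant := Vale.Agent.P092.H448.Gal.invInv_of_right μ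
  haveI : ν.IsInvInvariant := Vale.Agent.P092.H448.Gal.invInv_of_right ν
  obtain ⟨c', U, R, hc', P⟩ := exists_pk D hκ hp μ ν h1 h2
  haveI : (c' • ν).IsHaarMeasure := Measure.IsHaarMeasure.nnreal_smul ν hc'
  have hj : ∃ a, jj D hκ p μ ν a ≠ 0 := by
    obtain ⟨a₀, ha₀, ha₀'⟩ := hne
    refine ⟨⟨a₀, ha₀⟩, fun h => nsq_ne_zero (μ := μ) D.fr.reg ha₀.smo.toFd ha₀' ?_⟩
    have h4 : ‖jj D hκ p μ ν ⟨a₀, ha₀⟩‖ ^ 2 = (nsq ω μ a₀).toReal :=
      Vale.Agent.P092.H156.Sm.norm_toLp_sq ha₀.smo.l2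
    rw [h, norm_zero, zero_pow two_ne_zero] at h4
    exact ((ENNReal.toReal_eq_zero_iff _).1 h4.symm).resolve_right (nsq_lt_top ha₀.smo.l2).ne
  have faith := faith_of hH P hj
  have h0 := coef_van P.ha P.actH P.itgH
  have hs : ∀ h, Smo ι' κ' ρ V ω μ' (al κ' V h b) := smo_al D.fr hκ' hb
  choose Λ hΛ hΛb hΛp using fun h => exists_Lam D hκ hp h1 h2 P faith hj h0 (hs h).toFd (hs h).l2
  have hn : ∀ h, (nsq ω μ' (al κ' V h b)).toReal = (nsq ω μ' b).toReal := fun h => by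
    rw [← Vale.Agent.P092.H156.Sm.norm_toLp_sq (hs h).l2,
      ← Vale.Agent.P092.H156.Sm.norm_toLp_sq hb.l2]
    have h5 := norm_vec_al (μ := μ') D.fr hκ' hb h
    unfold vec at h5
    rw [h5]
  have hb' : ∀ h g, ‖Λ h g‖ ≤ (nsq ω μ' b).toReal * ‖g‖ := fun h g => by
    rw [← hn h]; exact hΛb h g
  have hd := dense_ph P h0 hj faith
  have iso1 : ∀ u : TA D hκ p μ ν, Iso μ (u : G → K →L[ℂ] K) (nsq ω μ (u : G → K →L[ℂ] K)) :=
    fun u => H100Q.iso_of_F1 μ h1 u.2.smo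
  have iso2 : ∀ u : TA D hκ p μ ν, Iso μ (fun y => adjoint ((u : G → K →L[ℂ] K) y))
      (nsq ω μ (u : G → K →L[ℂ] K)) := fun u => H100Q.iso_adj μ h1 u.2.smo D.fr
  have fin : ∀ u : TA D hκ p μ ν, nsq ω μ (u : G → K →L[ℂ] K) ≠ ∞ := fun u =>
    (nsq_lt_top u.2.smo.l2).ne
  have hc : ∀ g, Continuous fun h => Λ h g := by
    refine cont_of_dense hb' hd ?_
    rintro _ ⟨⟨u, v⟩, rfl⟩
    simp only [hΛ]
    exact continuous_q_al D.fr hκ' hb v.2.smo.toFd u.2.smo.toFd (iso2 v) (fin v) (iso1 u) (fin u)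
  have hcov : ∀ v h g, Λ (κ' v * h) (cjF (κ v) g) = Λ h g := by
    intro v h
    refine cov_of_dense' (κ v) hd ?_
    rintro _ ⟨⟨u, w⟩, rfl⟩
    have e3 : cjF (κ v) (ph P h0 u w) = ph P h0 (aT D hκ μ ν (κ v) u) (aT D hκ μ ν (κ v) w) := by
      ext t
      rw [cjF_apply, ph_apply, ph_apply, P.actH.act, ← P.actH.innerj (κ v), P.actH.act]
      congr 3
      group
    simp only
    rw [e3, hΛ, hΛ]
    have k1 : al κ' V (κ' v * h) b = fun u => V v * al κ' V h b u * V v⁻¹ := funext fun u => by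
      rw [← al_al D.fr hκ' hb.acont, al_coe D.fr hκ' (hs h).acont]; rfl
    have k2 : ∀ u : TA D hκ p μ ν, (aT D hκ μ ν (κ v) u : G → K →L[ℂ] K) =
        fun y => V v * (u : G → K →L[ℂ] K) y * V v⁻¹ := fun u => funext fun y =>
      al_coe D.fr hκ u.2.smo.acont v y
    rw [k1, k2, k2]
    exact q_conj D.fr w.2.smo.toFd u.2.smo.toFd (hs h).toFd (hs h).l2 (iso2 w) (fin w) (iso1 u)
      (fin u) v
  obtain ⟨k, hk⟩ := kill hm e1 e2 c1 c2 hsec ENNReal.toReal_nonneg hb' hΛp hc hcov hH.recu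
  have hone : al κ' V 1 b = b := funext fun u => al_one D.fr hκ' hb.acont u
  refine comm_of_const D hκ hp h1 hb.toFd hb.l2 (k := k) (fun w u => ?_) ha x y
  have h5 := hk (ph P h0 u w)
  rw [hΛ, hone, ph_apply, P.actH.one, inner_jj] at h5
  exact h5

end Vale.Agent.P092.H565
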