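import Vale.Agent.P092.H821.Diff2

/-!
P092 (helper565), project Q, block [Q-C3]: families of positive functionals on `C₀(H)` which are
covariant under a lattice are carried by the point `1`.
-/

set_option linter.all false

open MeasureTheory Filter Topology
open scoped ZeroAtInfty InnerProductSpace

namespace Vale.Agent.P092.H565

open Vale.Agent.P092.H978
open Vale.Agent.P092.H821 (cjF_cjF cjF_one norm_cjF_le continuous_cjF norm_le_of apply_le_norm
  exists_bump mem_ideal)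

/-- positivity of a functional -/
def PosF {X : Type*} [TopologicalSpace X] (Λ : C₀(X, ℂ) → ℂ) : Prop :=
  ∀ f : C₀(X, ℂ), 0 ≤ (Λ (star f * f)).re ∧ (Λ (star f * f)).im = 0

section lim

variable {X : Type*} [TopologicalSpace X] [MeasurableSpace X] [OpensMeasurableSpace X]
  {μ : Measure X}

theorem int_c0 {f : X → ℝ} (hf : Integrable f μ) (g : C₀(X, ℂ)) :
    Integrable (fun h => (f h : ℂ) * g h) μ := by
  refine hf.ofReal.mul_bdd (c := ‖g‖) (map_continuous g).aestronglyMeasurable ?_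
  exact Eventually.of_forall fun h => apply_le_norm g h

theorem norm_int_c0 {f : X → ℝ} (hf : Integrable f μ) (h0 : ∀ h, 0 ≤ f h) (g : C₀(X, ℂ)) :
    ‖∫ h, (f h : ℂ) * g h ∂μ‖ ≤ (∫ h, f h ∂μ) * ‖g‖ := by
  rw [← integral_mul_const]
  refine norm_integral_le_of_norm_le (hf.mul_const _) (Eventually.of_forall fun h => ?_)
  rw [norm_mul, Complex.norm_real, Real.norm_of_nonneg (h0 h)]
  exact mul_le_mul_of_nonneg_left (apply_le_norm g h) (h0 h)

/-- **the limit functional** -/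
theorem exists_fun {S : Set C₀(X, ℂ)} (hS : Dense (Submodule.span ℂ S : Set C₀(X, ℂ)))
    (f : ℕ → X → ℝ) (hf : ∀ n, Integrable (f n) μ) (h0 : ∀ n h, 0 ≤ f n h) {C : ℝ} {m : ℕ → ℝ}
    (hM : ∀ n, ∫ h, f n h ∂μ ≤ C * m n) (hm : Tendsto m atTop (𝓝 1))
    (hlim : ∀ φ ∈ S, ∃ l, Tendsto (fun n => ∫ h, (f n h : ℂ) * φ h ∂μ) atTop (𝓝 l)) :
    ∃ Λ : C₀(X, ℂ) →L[ℂ] ℂ,
      (∀ φ, Tendsto (fun n => ∫ h, (f n h : ℂ) * φ h ∂μ) atTop (𝓝 (Λ φ))) ∧
      (∀ φ, ‖Λ φ‖ ≤ C * ‖φ‖) ∧ PosF Λ := by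
  have hCm : Tendsto (fun n => C * m n) atTop (𝓝 C) := by
    simpa using hm.const_mul C
  obtain ⟨M, hMb⟩ : ∃ M, ∀ n, C * m n ≤ M := by
    obtain ⟨M, hM⟩ := hCm.bddAbove_range
    exact ⟨M, fun n => hM ⟨n, rfl⟩⟩
  have hM0 : 0 ≤ M := (integral_nonneg fun h => h0 0 h).trans ((hM 0).trans (hMb 0))
  have hb : ∀ n g, ‖∫ h, (f n h : ℂ) * (g : C₀(X, ℂ)) h ∂μ‖ ≤ M * ‖g‖ := fun n g =>
    (norm_int_c0 (hf n) (h0 n) g).trans
      (mul_le_mul_of_nonneg_right ((hM n).trans (hMb n)) (norm_nonneg _))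
  have hadd : ∀ n g g', ∫ h, (f n h : ℂ) * (g + g' : C₀(X, ℂ)) h ∂μ =
      ∫ h, (f n h : ℂ) * g h ∂μ + ∫ h, (f n h : ℂ) * g' h ∂μ := fun n g g' => by
    rw [← integral_add (int_c0 (hf n) g) (int_c0 (hf n) g')]
    refine integral_congr_ae (Eventually.of_forall fun h => ?_)
    simp only [ZeroAtInftyContinuousMap.add_apply]
    ring
  have hsm : ∀ n (c : ℂ) g, ∫ h, (f n h : ℂ) * (c • g : C₀(X, ℂ)) h ∂μ =
      c * ∫ h, (f n h : ℂ) * g h ∂μ := fun n c g => by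
    rw [← integral_const_mul]
    refine integral_congr_ae (Eventually.of_forall fun h => ?_)
    simp only [ZeroAtInftyContinuousMap.smul_apply, smul_eq_mul]
    ring
  have hspan : ∀ g ∈ Submodule.span ℂ S, ∃ l,
      Tendsto (fun n => ∫ h, (f n h : ℂ) * g h ∂μ) atTop (𝓝 l) := by
    intro g hg
    induction hg using Submodule.span_induction with
    | mem g hg => exact hlim g hg
    | zero => exact ⟨0, by simp⟩
    | add g g' _ _ h1 h2 =>
      obtain ⟨l1, h1⟩ := h1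
      obtain ⟨l2, h2⟩ := h2
      exact ⟨l1 + l2, by simp only [hadd]; exact h1.add h2⟩
    | smul c g _ h1 =>
      obtain ⟨l1, h1⟩ := h1
      exact ⟨c * l1, by simp only [hsm]; exact h1.const_mul c⟩
  have hall : ∀ g : C₀(X, ℂ), ∃ l, Tendsto (fun n => ∫ h, (f n h : ℂ) * g h ∂μ) atTop (𝓝 l) := by
    intro g
    refine cauchySeq_tendsto_of_complete (Metric.cauchySeq_iff'.2 fun ε hε => ?_)
    obtain ⟨g', hg', hd⟩ := Metric.mem_closure_iff.1 (hS g) (ε / (4 * (M + 1))) (by positivity)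
    obtain ⟨l, hl⟩ := hspan g' hg'
    obtain ⟨N, hN⟩ := Metric.cauchySeq_iff'.1 hl.cauchySeq (ε / 4) (by positivity)
    have hsub : ∀ n, ∫ h, (f n h : ℂ) * g h ∂μ = ∫ h, (f n h : ℂ) * g' h ∂μ +
        ∫ h, (f n h : ℂ) * (g - g' : C₀(X, ℂ)) h ∂μ := fun n => by
      rw [← hadd, add_sub_cancel]
    have hsm2 : ∀ n, ‖∫ h, (f n h : ℂ) * (g - g' : C₀(X, ℂ)) h ∂μ‖ ≤ ε / 4 := fun n => by
      refine (hb n _).trans ?_
      rw [dist_eq_norm] at hd
      have h1 : M * ‖g - g'‖ ≤ (M + 1) * (ε / (4 * (M + 1))) :=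
        mul_le_mul (by linarith) hd.le (norm_nonneg _) (by linarith)
      refine h1.trans (le_of_eq ?_)
      field_simp
    refine ⟨N, fun n hn => ?_⟩
    have h1 := hN n hn
    rw [dist_eq_norm] at h1 ⊢
    rw [hsub n, hsub N]
    have h2 : ‖∫ h, (f n h : ℂ) * g' h ∂μ + ∫ h, (f n h : ℂ) * (g - g' : C₀(X, ℂ)) h ∂μ -
        (∫ h, (f N h : ℂ) * g' h ∂μ + ∫ h, (f N h : ℂ) * (g - g' : C₀(X, ℂ)) h ∂μ)‖ ≤
        ‖∫ h, (f n h : ℂ) * g' h ∂μ - ∫ h, (f N h : ℂ) * g' h ∂μ‖ +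
        ‖∫ h, (f n h : ℂ) * (g - g' : C₀(X, ℂ)) h ∂μ‖ +
        ‖∫ h, (f N h : ℂ) * (g - g' : C₀(X, ℂ)) h ∂μ‖ := by
      rw [add_sub_add_comm]
      refine (norm_add_le _ _).trans ?_
      rw [add_assoc]
      exact add_le_add le_rfl (norm_sub_le _ _)
    linarith [hsm2 n, hsm2 N]
  choose L hL using hall
  have hLb : ∀ g, ‖L g‖ ≤ C * ‖g‖ := fun g => by
    refine le_of_tendsto_of_tendsto (hL g).norm (hCm.mul_const ‖g‖) (Eventually.of_forall fun n => ?_)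
    exact (norm_int_c0 (hf n) (h0 n) g).trans (mul_le_mul_of_nonneg_right (hM n) (norm_nonneg _))
  let Λ0 : C₀(X, ℂ) →ₗ[ℂ] ℂ :=
    { toFun := L
      map_add' := fun g g' => by
        refine tendsto_nhds_unique (hL (g + g')) ?_
        simp only [hadd]
        exact (hL g).add (hL g')
      map_smul' := fun c g => by
        refine tendsto_nhds_unique (hL (c • g)) ?_
        simp only [hsm]
        exact (hL g).const_mul c }
  refine ⟨Λ0.mkContinuous C hLb, hL, hLb, fun g => ?_⟩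
  have hr : ∀ n, ∫ h, (f n h : ℂ) * (star g * g : C₀(X, ℂ)) h ∂μ =
      ((∫ h, f n h * ‖g h‖ ^ 2 ∂μ : ℝ) : ℂ) := fun n => by
    rw [← integral_complex_ofReal]
    refine integral_congr_ae (Eventually.of_forall fun h => ?_)
    simp only [ZeroAtInftyContinuousMap.mul_apply, ZeroAtInftyContinuousMap.star_apply]
    push_cast
    congr 1
    exact Complex.conj_mul' _
  have h1 := hL (star g * g)
  simp only [hr] at h1
  constructor
  · refine ge_of_tendsto ((Complex.continuous_re.tendsto _).comp h1) (Eventually.of_forall fun n => ?_)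
    simp only [Function.comp_apply, Complex.ofReal_re]
    exact integral_nonneg fun h => mul_nonneg (h0 n h) (by positivity)
  · have h2 := (Complex.continuous_im.tendsto _).comp h1
    simp only [Function.comp_def, Complex.ofReal_im] at h2
    exact (tendsto_nhds_unique h2 tendsto_const_nhds)

end lim

section kill

variable {X : Type*} [TopologicalSpace X]

/-- polarisation -/
theorem polar {Λ : C₀(X, ℂ) →L[ℂ] ℂ} {a b : C₀(X, ℂ)} (ha : Λ (star a * a) = 0)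
    (hb : Λ (star b * b) = 0) (h1 : Λ (star (a + b) * (a + b)) = 0)
    (h2 : Λ (star (a + Complex.I • b) * (a + Complex.I • b)) = 0) : Λ (star a * b) = 0 := by
  have e1 : star (a + b) * (a + b) = star a * a + star b * b + (star a * b + star b * a) := by
    ext t
    simp only [star_add, ZeroAtInftyContinuousMap.mul_apply, ZeroAtInftyContinuousMap.add_apply]
    ring
  have e2 : star (a + Complex.I • b) * (a + Complex.I • b) =
      star a * a + star b * b + (Complex.I • (star a * b) - Complex.I • (star b * a)) := by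
    ext t
    simp only [star_add, star_smul, ZeroAtInftyContinuousMap.mul_apply,
      ZeroAtInftyContinuousMap.add_apply, ZeroAtInftyContinuousMap.smul_apply,
      ZeroAtInftyContinuousMap.sub_apply, smul_eq_mul, RCLike.star_def, Complex.conj_I]
    linear_combination (-((star b : C₀(X, ℂ)) t * b t)) * Complex.I_sq
  rw [e1, map_add, map_add, ha, hb, map_add] at h1
  rw [e2, map_add, map_add, ha, hb, map_sub, map_smul, map_smul] at h2
  simp only [zero_add, smul_eq_mul] at h1 h2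
  rw [← mul_sub] at h2
  have h3 := (mul_eq_zero.1 h2).resolve_left Complex.I_ne_zero
  linear_combination (h1 + h3) / 2

variable {Γ H H' E : Type} [Group Γ] [Group H] [TopologicalSpace H] [IsTopologicalGroup H]
  [T2Space H] [LocallyCompactSpace H] [Group H'] [TopologicalSpace H']
  [Group E] [TopologicalSpace E] [IsTopologicalGroup E] [MeasurableSpace E] [BorelSpace E]
  {κ : Γ → H} {κ' : Γ → H'} {q : Γ →* E} {π₁ : E →* H} {π₂ : E →* H'} {m : Measure E}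
  {Λ : H' → (C₀(H, ℂ) →L[ℂ] ℂ)} {C : ℝ}

/-- the function which is averaged -/
noncomputable def Fa (π₁ : E →* H) (π₂ : E →* H') (Λ : H' → (C₀(H, ℂ) →L[ℂ] ℂ)) (g : C₀(H, ℂ))
    (e : E) : ℝ := (Λ (π₂ e) (cjF (π₁ e) g)).re

theorem cjF_star_mul (s : H) (f : C₀(H, ℂ)) : cjF s (star f * f) = star (cjF s f) * cjF s f := by
  ext t
  rfl

theorem Fa_nonneg (hpos : ∀ h, PosF (Λ h)) (f : C₀(H, ℂ)) (e : E) :
    0 ≤ Fa π₁ π₂ Λ (star f * f) e := by
  unfold Fa
  rw [cjF_star_mul]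
  exact (hpos _ _).1

theorem Fa_le (hC0 : 0 ≤ C) (hb : ∀ h g, ‖Λ h g‖ ≤ C * ‖g‖) (g : C₀(H, ℂ)) (e : E) :
    |Fa π₁ π₂ Λ g e| ≤ C * ‖g‖ := by
  refine (Complex.abs_re_le_norm _).trans ((hb _ _).trans ?_)
  exact mul_le_mul_of_nonneg_left (norm_cjF_le _ _) hC0

theorem continuous_Fa (hC0 : 0 ≤ C) (hb : ∀ h g, ‖Λ h g‖ ≤ C * ‖g‖)
    (hc : ∀ g, Continuous fun h => Λ h g)
    (h1 : Continuous π₁) (h2 : Continuous π₂) (g : C₀(H, ℂ)) : Continuous (Fa π₁ π₂ Λ g) := by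
  refine Complex.continuous_re.comp ?_
  rw [continuous_iff_continuousAt]
  intro e₀
  rw [Metric.continuousAt_iff']
  intro ε hε
  have c1 : Continuous fun e => cjF (π₁ e) g := (continuous_cjF g).comp h1
  have c2 : Continuous fun e => Λ (π₂ e) (cjF (π₁ e₀) g) := (hc _).comp h2
  filter_upwards [Metric.continuousAt_iff'.1 c1.continuousAt (ε / (2 * (C + 1))) (by positivity),
    Metric.continuousAt_iff'.1 c2.continuousAt (ε / 2) (by positivity)] with e he1 he2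
  rw [dist_eq_norm] at he1 he2 ⊢
  have e3 : Λ (π₂ e) (cjF (π₁ e) g) - Λ (π₂ e₀) (cjF (π₁ e₀) g) =
      Λ (π₂ e) (cjF (π₁ e) g - cjF (π₁ e₀) g) +
      (Λ (π₂ e) (cjF (π₁ e₀) g) - Λ (π₂ e₀) (cjF (π₁ e₀) g)) := by
    rw [map_sub]; ring
  rw [e3]
  have e4 : ‖Λ (π₂ e) (cjF (π₁ e) g - cjF (π₁ e₀) g)‖ ≤ (C + 1) * (ε / (2 * (C + 1))) :=
    (hb _ _).trans (mul_le_mul (by linarith) he1.le (norm_nonneg _) (by linarith))
  have e5 : (C + 1) * (ε / (2 * (C + 1))) = ε / 2 := by field_simp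
  refine lt_of_le_of_lt (norm_add_le _ _) ?_
  linarith

theorem Fa_mul_right {e₁ : E} {s : H} (h1 : π₁ e₁ = s) (h2 : π₂ e₁ = 1) (g : C₀(H, ℂ)) (e : E) :
    Fa π₁ π₂ Λ g (e * e₁) = Fa π₁ π₂ Λ (cjF s g) e := by
  unfold Fa
  rw [map_mul, map_mul, h1, h2, mul_one, cjF_cjF]

theorem Fa_inv (hκ : ∀ g, κ g = π₁ (q g)) (hκ' : ∀ g, κ' g = π₂ (q g))
    (hcov : ∀ v h g, Λ (κ' v * h) (cjF (κ v) g) = Λ h g) (g : C₀(H, ℂ)) (v : Γ) (e : E) :
    Fa π₁ π₂ Λ g (q v * e) = Fa π₁ π₂ Λ g e := by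
  unfold Fa
  rw [map_mul, map_mul, ← hκ, ← hκ', ← cjF_cjF, hcov]

/-- sums of positive functions with disjoint supports -/
theorem sum_pos_le {Λ : C₀(H, ℂ) →L[ℂ] ℂ} (hb : ∀ g, ‖Λ g‖ ≤ C * ‖g‖) (hC0 : 0 ≤ C)
    (g : ℕ → C₀(H, ℂ)) (hd : ∀ i j, i ≠ j → ∀ t, g i t = 0 ∨ g j t = 0) {B : ℝ} (hB0 : 0 ≤ B)
    (hB : ∀ i t, ‖g i t‖ ≤ B) (N : ℕ) :
    ∑ i ∈ Finset.range N, (Λ (g i)).re ≤ C * B := by
  have h1 : ∑ i ∈ Finset.range N, (Λ (g i)).re = (Λ (∑ i ∈ Finset.range N, g i)).re := by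
    rw [map_sum, Complex.re_sum]
  rw [h1]
  refine (Complex.re_le_norm _).trans ((hb _).trans (mul_le_mul_of_nonneg_left ?_ hC0))
  refine norm_le_of hB0 fun t => ?_
  have h4 : (∑ i ∈ Finset.range N, g i) t = ∑ i ∈ Finset.range N, g i t := by
    exact map_sum (evl t) g _
  rw [h4]
  by_cases h6 : ∃ j ∈ Finset.range N, g j t ≠ 0
  · obtain ⟨j, hj, hjt⟩ := h6
    rw [Finset.sum_eq_single_of_mem j hj fun i _ hij => (hd i j hij t).resolve_right hjt]
    exact hB j t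
  · push Not at h6
    rw [Finset.sum_eq_zero h6, norm_zero]
    exact hB0

/-- functions supported in a small set are killed -/
theorem kill_small (hm : PA.Lat q m) (hκ : ∀ g, κ g = π₁ (q g)) (hκ' : ∀ g, κ' g = π₂ (q g))
    (c1 : Continuous π₁) (c2 : Continuous π₂) (hsec : ∀ k : H, ∃ e : E, π₁ e = k ∧ π₂ e = 1)
    (hC0 : 0 ≤ C) (hb : ∀ h g, ‖Λ h g‖ ≤ C * ‖g‖) (hpos : ∀ h, PosF (Λ h))
    (hc : ∀ g, Continuous fun h => Λ h g)
    (hcov : ∀ v h g, Λ (κ' v * h) (cjF (κ v) g) = Λ h g) {W : Set H} {a : ℕ → H}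
    (ha : Pairwise fun i j => Disjoint ((fun y => a i * y * (a i)⁻¹) '' W)
      ((fun y => a j * y * (a j)⁻¹) '' W)) {f : C₀(H, ℂ)} (hf : ∀ t, t ∉ W → f t = 0) :
    Λ 1 (star f * f) = 0 := by
  have hprob : IsProbabilityMeasure m := hm.prob
  set g : C₀(H, ℂ) := star f * f with hg
  have hcont : ∀ g : C₀(H, ℂ), Continuous (Fa π₁ π₂ Λ g) := continuous_Fa hC0 hb hc c1 c2
  have hint : ∀ g : C₀(H, ℂ), Integrable (Fa π₁ π₂ Λ g) m := fun g =>
    Integrable.of_bound (hcont g).aestronglyMeasurable (C * ‖g‖)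
      (Eventually.of_forall fun e => Fa_le hC0 hb g e)
  have hav : ∀ s : H, ∫ e, Fa π₁ π₂ Λ (cjF s g) e ∂m = ∫ e, Fa π₁ π₂ Λ g e ∂m := by
    intro s
    obtain ⟨e₁, he1, he2⟩ := hsec s
    have h1 := hm.inv (fun h => ((Fa π₁ π₂ Λ g h : ℝ) : ℂ))
      (Complex.continuous_ofReal.comp (hcont g))
      ⟨C * ‖g‖, fun h => by rw [Complex.norm_real]; exact Fa_le hC0 hb g h⟩
      (fun v h => by rw [Fa_inv hκ hκ' hcov]) e₁
    simp only [Fa_mul_right he1 he2] at h1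
    rw [integral_complex_ofReal, integral_complex_ofReal] at h1
    exact_mod_cast h1
  have hsum : ∀ N : ℕ, (N : ℝ) * ∫ e, Fa π₁ π₂ Λ g e ∂m ≤ C * ‖g‖ := by
    intro N
    have h1 : ∑ i ∈ Finset.range N, ∫ e, Fa π₁ π₂ Λ (cjF (a i) g) e ∂m =
        (N : ℝ) * ∫ e, Fa π₁ π₂ Λ g e ∂m := by
      rw [Finset.sum_congr rfl fun i _ => hav (a i)]
      simp
    rw [← h1, ← integral_finsetSum _ fun i _ => hint _]
    have h2 : ∀ e, ∑ i ∈ Finset.range N, Fa π₁ π₂ Λ (cjF (a i) g) e ≤ C * ‖g‖ := by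
      intro e
      refine sum_pos_le (hb _) hC0 (fun i => cjF (π₁ e) (cjF (a i) g)) ?_ (norm_nonneg _) ?_ N
      · intro i j hij t
        by_contra hcon
        push Not at hcon
        obtain ⟨h4, h5⟩ := hcon
        simp only [cjF_apply] at h4 h5
        set y := (π₁ e)⁻¹ * t * π₁ e with hy
        have hgf : ∀ s, s ∉ W → g s = 0 := fun s hs => by
          rw [hg, ZeroAtInftyContinuousMap.mul_apply, hf s hs, mul_zero]
        have h6 : (a i)⁻¹ * y * a i ∈ W := by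
          by_contra h7; exact h4 (hgf _ h7)
        have h7 : (a j)⁻¹ * y * a j ∈ W := by
          by_contra h7; exact h5 (hgf _ h7)
        have h8 : y ∈ (fun y => a i * y * (a i)⁻¹) '' W :=
          ⟨_, h6, by change a i * ((a i)⁻¹ * y * a i) * (a i)⁻¹ = y; group⟩
        have h9 : y ∈ (fun y => a j * y * (a j)⁻¹) '' W :=
          ⟨_, h7, by change a j * ((a j)⁻¹ * y * a j) * (a j)⁻¹ = y; group⟩
        exact Set.disjoint_left.1 (ha hij) h8 h9
      · intro i t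
        simp only [cjF_apply]
        exact apply_le_norm g _
    calc ∫ e, ∑ i ∈ Finset.range N, Fa π₁ π₂ Λ (cjF (a i) g) e ∂m
        ≤ ∫ _, C * ‖g‖ ∂m :=
          integral_mono (integrable_finsetSum _ fun i _ => hint _) (integrable_const _) h2
      _ = C * ‖g‖ := by simp
  have hnn : ∀ e, 0 ≤ Fa π₁ π₂ Λ g e := fun e => Fa_nonneg hpos f e
  have h0 : 0 ≤ ∫ e, Fa π₁ π₂ Λ g e ∂m := integral_nonneg hnn
  have hzero : ∫ e, Fa π₁ π₂ Λ g e ∂m = 0 := by
    by_contra hcon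
    have hp : 0 < ∫ e, Fa π₁ π₂ Λ g e ∂m := lt_of_le_of_ne h0 (Ne.symm hcon)
    obtain ⟨N, hN⟩ := exists_nat_gt (C * ‖g‖ / ∫ e, Fa π₁ π₂ Λ g e ∂m)
    rw [div_lt_iff₀ hp] at hN
    linarith [hsum N]
  have h1 := hm.faith (Fa π₁ π₂ Λ g) (hcont g)
    ⟨C * ‖g‖, fun h => (le_abs_self _).trans (Fa_le hC0 hb g h)⟩ hnn
    (fun v h => Fa_inv hκ hκ' hcov g v h) hzero 1
  unfold Fa at h1
  rw [map_one, map_one, cjF_one] at h1
  exact Complex.ext h1 (hpos 1 f).2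

/-- **covariant families of positive functionals are carried by `1`** -/
theorem kill (hm : PA.Lat q m) (hκ : ∀ g, κ g = π₁ (q g)) (hκ' : ∀ g, κ' g = π₂ (q g))
    (c1 : Continuous π₁) (c2 : Continuous π₂) (hsec : ∀ k : H, ∃ e : E, π₁ e = k ∧ π₂ e = 1)
    (hC0 : 0 ≤ C) (hb : ∀ h g, ‖Λ h g‖ ≤ C * ‖g‖) (hpos : ∀ h, PosF (Λ h))
    (hc : ∀ g, Continuous fun h => Λ h g)
    (hcov : ∀ v h g, Λ (κ' v * h) (cjF (κ v) g) = Λ h g)
    (hrec : ∀ z : H, z ≠ 1 → ∃ U ∈ 𝓝 z, ∃ a : ℕ → H,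
      Pairwise fun i j => Disjoint ((fun y => a i * y * (a i)⁻¹) '' U)
        ((fun y => a j * y * (a j)⁻¹) '' U)) :
    ∃ k : ℂ, ∀ g : C₀(H, ℂ), Λ 1 g = k * g 1 := by
  have key : ∀ f : C₀(H, ℂ), f 1 = 0 → Λ 1 f = 0 := by
    intro f hf
    refine (mem_ideal (x₀ := (1 : H))
      (fun f => Λ 1 f = 0 ∧ ∀ g, Λ 1 (g * f) = 0) ?_ ?_ ?_ ?_ ?_ f hf).1
    · exact ⟨map_zero _, fun g => by rw [mul_zero, map_zero]⟩
    · rintro f g ⟨h1, h2⟩ ⟨h3, h4⟩
      exact ⟨by rw [map_add, h1, h3, add_zero], fun u => by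
        rw [mul_add, map_add, h2, h4, add_zero]⟩
    · rintro f g ⟨h1, h2⟩
      exact ⟨h2 f, fun u => by rw [← mul_assoc]; exact h2 _⟩
    · intro f h
      have hcl : ∀ L : C₀(H, ℂ) → ℂ, (∀ u v, L (u - v) = L u - L v) → (∃ B : ℝ, 0 ≤ B ∧
          ∀ u, ‖L u‖ ≤ B * ‖u‖) → (∀ ε : ℝ, 0 < ε → ∃ g, L g = 0 ∧ ‖f - g‖ ≤ ε) → L f = 0 := by
        rintro L hL ⟨B, hB0, hB⟩ h
        refine norm_le_zero_iff.1 (le_of_forall_pos_le_add fun ε hε => ?_)
        obtain ⟨g, hg, hfg⟩ := h (ε / (B + 1)) (by positivity)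
        have e : L f = L (f - g) := by rw [hL, hg, sub_zero]
        rw [e, zero_add]
        refine (hB _).trans ?_
        calc B * ‖f - g‖ ≤ (B + 1) * (ε / (B + 1)) :=
              mul_le_mul (by linarith) hfg (norm_nonneg _) (by linarith)
          _ = ε := by field_simp
      refine ⟨hcl (fun u => Λ 1 u) (fun u v => map_sub _ _ _) ⟨C, hC0, hb 1⟩ fun ε hε => ?_,
        fun w => hcl (fun u => Λ 1 (w * u)) (fun u v => by rw [mul_sub, map_sub])
          ⟨C * ‖w‖, by positivity, fun u => ?_⟩ fun ε hε => ?_⟩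
      · obtain ⟨g, hg, hfg⟩ := h ε hε
        exact ⟨g, hg.1, hfg⟩
      · refine (hb 1 _).trans ?_
        rw [mul_assoc]
        exact mul_le_mul_of_nonneg_left (norm_mul_le _ _) hC0
      · obtain ⟨g, hg, hfg⟩ := h ε hε
        exact ⟨g, hg.2 w, hfg⟩
    · intro z hz
      obtain ⟨W, hW, a, ha⟩ := hrec z hz
      obtain ⟨f, hf1, hf0⟩ := exists_bump hW
      have hk : ∀ f : C₀(H, ℂ), (∀ t, t ∉ W → f t = 0) → Λ 1 (star f * f) = 0 := fun f hf =>
        kill_small hm hκ hκ' c1 c2 hsec hC0 hb hpos hc hcov ha hf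
      refine ⟨star f * f, ⟨hk f hf0, fun g => ?_⟩, ?_⟩
      · have e : g * (star f * f) = star f * (g * f) := by
          ext t
          simp only [ZeroAtInftyContinuousMap.mul_apply]
          ring
        rw [e]
        have s1 : ∀ t, t ∉ W → (g * f) t = 0 := fun t ht => by
          rw [ZeroAtInftyContinuousMap.mul_apply, hf0 t ht, mul_zero]
        refine polar (hk f hf0) (hk _ s1) (hk _ fun t ht => ?_) (hk _ fun t ht => ?_)
        · rw [ZeroAtInftyContinuousMap.add_apply, hf0 t ht, s1 t ht, add_zero]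
        · rw [ZeroAtInftyContinuousMap.add_apply, ZeroAtInftyContinuousMap.smul_apply, hf0 t ht,
            s1 t ht, smul_zero, add_zero]
      · rw [ZeroAtInftyContinuousMap.mul_apply, ZeroAtInftyContinuousMap.star_apply, hf1]
        simp
  obtain ⟨u, hu⟩ := exists_unit_at (H := H)
  refine ⟨Λ 1 u, fun g => ?_⟩
  have h1 := key (g - g 1 • u) (by
    change g 1 - g 1 * u 1 = 0
    rw [hu, mul_one, sub_self])
  rw [map_sub, map_smul, sub_eq_zero] at h1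
  rw [h1, smul_eq_mul, mul_comm]

end kill

end Vale.Agent.P092.H565
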