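import Mathlib.MeasureTheory.Function.L2Space
import Mathlib.MeasureTheory.Function.LpSpace.Complete
import Mathlib.Analysis.InnerProductSpace.Adjoint
import Mathlib.Topology.Algebra.InfiniteSum.Basic
import Mathlib.Tactic

/-!
P092 (helper565): square integrable families of operators `T : Y → (L →L[ℂ] L)` and the operators
`L → L²(Y; L)` they define.
-/

open Filter Topology MeasureTheory ContinuousLinearMap
open scoped InnerProductSpace ENNReal

set_option linter.unusedSectionVars false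

namespace Vale.Agent.P092.H565

variable {Y : Type*} [TopologicalSpace Y] [SecondCountableTopology Y] [MeasurableSpace Y]
  [OpensMeasurableSpace Y] {ν : Measure Y}
variable {L L' : Type*} [NormedAddCommGroup L] [InnerProductSpace ℂ L]
  [NormedAddCommGroup L'] [InnerProductSpace ℂ L']

/-- A strongly continuous family of operators which is square integrable on all vectors. -/
structure SqFam (ν : Measure Y) (T : Y → (L →L[ℂ] L')) (κ : ℝ) : Prop where
  cont : ∀ x, Continuous fun y => T y x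
  bd : ∀ x, eLpNorm (fun y => T y x) 2 ν ≤ ENNReal.ofReal (κ * ‖x‖)

/-- It is enough to have the bound on a dense set. -/
theorem sqFam_of_dense {T : Y → (L →L[ℂ] L')} {κ : ℝ} {S : Set L} (hS : Dense S)
    (hc : ∀ x, Continuous fun y => T y x)
    (h : ∀ x ∈ S, eLpNorm (fun y => T y x) 2 ν ≤ ENNReal.ofReal (κ * ‖x‖)) : SqFam ν T κ where
  cont := hc
  bd := fun x => by
    obtain ⟨u, hu, hux⟩ := mem_closure_iff_seq_limit.1 (hS x)
    have h1 : eLpNorm (fun y => T y x) 2 ν ≤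
        liminf (fun n => eLpNorm (fun y => T y (u n)) 2 ν) atTop := by
      refine Lp.eLpNorm_lim_le_liminf_eLpNorm (fun n => (hc (u n)).aestronglyMeasurable) _ ?_
      exact Eventually.of_forall fun y => ((T y).continuous.tendsto x).comp hux
    refine h1.trans ?_
    have h2 : Tendsto (fun n => ENNReal.ofReal (κ * ‖u n‖)) atTop
        (𝓝 (ENNReal.ofReal (κ * ‖x‖))) :=
      (ENNReal.continuous_ofReal.tendsto _).comp ((hux.norm).const_mul κ)
    rw [← h2.liminf_eq]
    exact liminf_le_liminf (Eventually.of_forall fun n => h (u n) (hu n))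

namespace SqFam

variable {T T' : Y → (L →L[ℂ] L')} {κ κ' : ℝ}

theorem memLp (h : SqFam ν T κ) (x : L) : MemLp (fun y => T y x) 2 ν :=
  ⟨(h.cont x).aestronglyMeasurable, (h.bd x).trans_lt ENNReal.ofReal_lt_top⟩

/-- The operator `x ↦ (y ↦ T y x)`. -/
noncomputable def W (h : SqFam ν T κ) (hκ : 0 ≤ κ) : L →L[ℂ] Lp L' 2 ν :=
  LinearMap.mkContinuous
    { toFun := fun x => (h.memLp x).toLp _
      map_add' := fun x z => by
        rw [← MemLp.toLp_add]
        congr 1
        funext y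
        simp
      map_smul' := fun c x => by
        rw [RingHom.id_apply, ← MemLp.toLp_const_smul]
        congr 1
        funext y
        simp } κ fun x => by
      change ‖(h.memLp x).toLp _‖ ≤ κ * ‖x‖
      rw [Lp.norm_toLp]
      exact ENNReal.toReal_le_of_le_ofReal (by positivity) (h.bd x)

theorem W_apply (h : SqFam ν T κ) (hκ : 0 ≤ κ) (x : L) : h.W hκ x = (h.memLp x).toLp _ := rfl

theorem norm_W_le (h : SqFam ν T κ) (hκ : 0 ≤ κ) : ‖h.W hκ‖ ≤ κ :=
  LinearMap.mkContinuous_norm_le _ hκ _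

theorem inner_W (h : SqFam ν T κ) (hκ : 0 ≤ κ) (h' : SqFam ν T' κ') (hκ' : 0 ≤ κ') (x z : L) :
    ⟪h.W hκ x, h'.W hκ' z⟫_ℂ = ∫ y, ⟪T y x, T' y z⟫_ℂ ∂ν := by
  rw [W_apply, W_apply, MeasureTheory.L2.inner_def]
  refine integral_congr_ae ?_
  filter_upwards [(h.memLp x).coeFn_toLp, (h'.memLp z).coeFn_toLp] with y h1 h2
  rw [h1, h2]

theorem integrable (h : SqFam ν T κ) (h' : SqFam ν T' κ') (x z : L) :
    Integrable (fun y => ⟪T y x, T' y z⟫_ℂ) ν := by
  refine (MeasureTheory.L2.integrable_inner (𝕜 := ℂ) ((h.memLp x).toLp _)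
    ((h'.memLp z).toLp _)).congr ?_
  filter_upwards [(h.memLp x).coeFn_toLp, (h'.memLp z).coeFn_toLp] with y h1 h2
  rw [h1, h2]

theorem norm_integral_le (h : SqFam ν T κ) (hκ : 0 ≤ κ) (h' : SqFam ν T' κ') (hκ' : 0 ≤ κ')
    (x z : L) : ‖∫ y, ⟪T y x, T' y z⟫_ℂ ∂ν‖ ≤ κ * ‖x‖ * (κ' * ‖z‖) := by
  rw [← h.inner_W hκ h' hκ']
  refine (norm_inner_le_norm _ _).trans ?_
  gcongr
  · exact (h.W hκ).le_of_opNorm_le (h.norm_W_le hκ) x
  · exact (h'.W hκ').le_of_opNorm_le (h'.norm_W_le hκ') z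

/-- An identity for the integrals passes from a dense set to all vectors. -/
theorem integral_eq_of_dense {S : Set L} (hS : Dense S) (h : SqFam ν T κ) (hκ : 0 ≤ κ)
    (h' : SqFam ν T' κ') (hκ' : 0 ≤ κ') (c : ℂ)
    (hd : ∀ x ∈ S, ∀ z ∈ S, ∫ y, ⟪T y x, T' y z⟫_ℂ ∂ν = c * ⟪x, z⟫_ℂ) (x z : L) :
    ∫ y, ⟪T y x, T' y z⟫_ℂ ∂ν = c * ⟪x, z⟫_ℂ := by
  simp_rw [← h.inner_W hκ h' hκ'] at hd ⊢
  have h1 : ∀ x ∈ S, ∀ z, ⟪h.W hκ x, h'.W hκ' z⟫_ℂ = c * ⟪x, z⟫_ℂ := fun x hx z => by
    have hcl : IsClosed {z : L | ⟪h.W hκ x, h'.W hκ' z⟫_ℂ = c * ⟪x, z⟫_ℂ} :=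
      isClosed_eq (continuous_const.inner (h'.W hκ').continuous)
        (continuous_const.mul (continuous_const.inner continuous_id))
    exact closure_minimal (fun z hz => hd x hx z hz) hcl (hS z)
  have hcl : IsClosed {x : L | ⟪h.W hκ x, h'.W hκ' z⟫_ℂ = c * ⟪x, z⟫_ℂ} :=
    isClosed_eq ((h.W hκ).continuous.inner continuous_const)
      (continuous_const.mul (continuous_id.inner continuous_const))
  exact closure_minimal (fun x hx => h1 x hx z) hcl (hS x)

end SqFam

end Vale.Agent.P092.H565
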