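import Vale.Agent.P092.H242.ThCDefs
import Vale.Agent.P092.H565.Wop

/-!
P092, Theorem C (helper565): left and right multiplication operators on the completion and the
square integrable families `y ↦ lm (r y a)`, `y ↦ rm (r y a)`.
-/

set_option linter.all false

open MeasureTheory Filter Topology ContinuousLinearMap
open scoped InnerProductSpace ENNReal

namespace Vale.Agent.P092.H565

open Vale.Agent.P092.H242.ThC

section ops

variable {A L : Type*} [NonUnitalRing A] [StarRing A] [Module ℂ A] [SMulCommClass ℂ A A]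
  [IsScalarTower ℂ A A] [NormedAddCommGroup L] [InnerProductSpace ℂ L] [CompleteSpace L]
  {j : A →ₗ[ℂ] L}

/-- right multiplication operator -/
theorem exists_right (hj : HA j) (a : A) :
    ∃ T : L →L[ℂ] L, ∀ b, T (j b) = j (b * a) := by
  let f : A →ₗ[ℂ] L :=
    { toFun := fun b => j (b * a)
      map_add' := fun x y => by rw [add_mul, map_add]
      map_smul' := fun c x => by rw [smul_mul_assoc, map_smul]; rfl }
  obtain ⟨C, hC0, hC⟩ := hj.bddR a
  exact ⟨f.extendOfNorm j, fun b => LinearMap.extendOfNorm_eq hj.dense ⟨C, hC⟩ b⟩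

/-- left multiplication -/
noncomputable def lm (hj : HA j) (a : A) : L →L[ℂ] L := (hj.exists_left a).choose

/-- right multiplication -/
noncomputable def rm (hj : HA j) (a : A) : L →L[ℂ] L := (exists_right hj a).choose

theorem lm_j (hj : HA j) (a b : A) : lm hj a (j b) = j (a * b) := (hj.exists_left a).choose_spec b

theorem rm_j (hj : HA j) (a b : A) : rm hj a (j b) = j (b * a) := (exists_right hj a).choose_spec b

theorem clm_ext {L' : Type*} [NormedAddCommGroup L'] [InnerProductSpace ℂ L'] (hj : HA j)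
    {S T : L →L[ℂ] L'} (h : ∀ b, S (j b) = T (j b)) : S = T := by
  refine ContinuousLinearMap.coeFn_injective ?_
  exact hj.dense.equalizer S.continuous T.continuous (funext h)

/-- an identity between inner products passes from `j A` to `L` -/
theorem form_ext (hj : HA j) {S T : L →L[ℂ] L}
    (h : ∀ a b, ⟪j a, S (j b)⟫_ℂ = ⟪j a, T (j b)⟫_ℂ) : S = T := by
  refine clm_ext hj fun b => ?_
  refine ext_inner_left ℂ fun v => ?_
  induction v using hj.dense.induction_on with
  | hp =>
    exact isClosed_eq (continuous_id.inner continuous_const)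
      (continuous_id.inner continuous_const)
  | ih a => exact h a b

theorem inner_lm (hj : HA j) (a : A) (x z : L) :
    ⟪lm hj a x, z⟫_ℂ = ⟪x, lm hj (star a) z⟫_ℂ := by
  induction x using hj.dense.induction_on with
  | hp =>
    exact isClosed_eq ((lm hj a).continuous.inner continuous_const)
      (continuous_id.inner continuous_const)
  | ih b =>
    induction z using hj.dense.induction_on with
    | hp =>
    exact isClosed_eq (continuous_const.inner continuous_id)
        (continuous_const.inner (lm hj (star a)).continuous)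
    | ih c => rw [lm_j, lm_j, hj.left]

theorem inner_rm (hj : HA j) (a : A) (x z : L) :
    ⟪rm hj a x, z⟫_ℂ = ⟪x, rm hj (star a) z⟫_ℂ := by
  induction x using hj.dense.induction_on with
  | hp =>
    exact isClosed_eq ((rm hj a).continuous.inner continuous_const)
      (continuous_id.inner continuous_const)
  | ih b =>
    induction z using hj.dense.induction_on with
    | hp =>
    exact isClosed_eq (continuous_const.inner continuous_id)
        (continuous_const.inner (rm hj (star a)).continuous)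
    | ih c => rw [rm_j, rm_j, hj.right]

theorem inner_lm' (hj : HA j) (a : A) (x z : L) :
    ⟪x, lm hj a z⟫_ℂ = ⟪lm hj (star a) x, z⟫_ℂ := by rw [inner_lm, star_star]

theorem inner_rm' (hj : HA j) (a : A) (x z : L) :
    ⟪x, rm hj a z⟫_ℂ = ⟪rm hj (star a) x, z⟫_ℂ := by rw [inner_rm, star_star]

theorem lm_mul (hj : HA j) (a b : A) : lm hj (a * b) = lm hj a * lm hj b :=
  clm_ext hj fun c => by rw [ContinuousLinearMap.mul_apply, lm_j, lm_j, lm_j, mul_assoc]

theorem rm_mul (hj : HA j) (a b : A) : rm hj (a * b) = rm hj b * rm hj a :=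
  clm_ext hj fun c => by rw [ContinuousLinearMap.mul_apply, rm_j, rm_j, rm_j, mul_assoc]

theorem lm_add (hj : HA j) (a b : A) : lm hj (a + b) = lm hj a + lm hj b :=
  clm_ext hj fun c => by rw [ContinuousLinearMap.add_apply, lm_j, lm_j, lm_j, add_mul, map_add]

theorem rm_add (hj : HA j) (a b : A) : rm hj (a + b) = rm hj a + rm hj b :=
  clm_ext hj fun c => by rw [ContinuousLinearMap.add_apply, rm_j, rm_j, rm_j, mul_add, map_add]

theorem lm_smul (hj : HA j) (c : ℂ) (a : A) : lm hj (c • a) = c • lm hj a :=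
  clm_ext hj fun b => by rw [ContinuousLinearMap.smul_apply, lm_j, lm_j, smul_mul_assoc, map_smul]

theorem rm_smul (hj : HA j) (c : ℂ) (a : A) : rm hj (c • a) = c • rm hj a :=
  clm_ext hj fun b => by rw [ContinuousLinearMap.smul_apply, rm_j, rm_j, mul_smul_comm, map_smul]

theorem lm_rm (hj : HA j) (a b : A) (x : L) : lm hj a (rm hj b x) = rm hj b (lm hj a x) := by
  have h : lm hj a * rm hj b = rm hj b * lm hj a :=
    clm_ext hj fun c => by rw [ContinuousLinearMap.mul_apply, ContinuousLinearMap.mul_apply, lm_j, rm_j, rm_j, lm_j, mul_assoc]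
  exact congrArg (fun T : L →L[ℂ] L => T x) h

section act

variable {H : Type*} [Group H] [TopologicalSpace H] {α : H → A → A} {U : H →* (L →L[ℂ] L)}

theorem U_lm (hj : HA j) (hα : Act j α U) (h : H) (a : A) (x : L) :
    U h (lm hj a x) = lm hj (α h a) (U h x) := by
  have e : U h * lm hj a = lm hj (α h a) * U h :=
    clm_ext hj fun c => by rw [ContinuousLinearMap.mul_apply, ContinuousLinearMap.mul_apply, lm_j, hα.coe, hα.coe, lm_j, hα.mul]
  exact congrArg (fun T : L →L[ℂ] L => T x) e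

theorem U_rm (hj : HA j) (hα : Act j α U) (h : H) (a : A) (x : L) :
    U h (rm hj a x) = rm hj (α h a) (U h x) := by
  have e : U h * rm hj a = rm hj (α h a) * U h :=
    clm_ext hj fun c => by rw [ContinuousLinearMap.mul_apply, ContinuousLinearMap.mul_apply, rm_j, hα.coe, hα.coe, rm_j, hα.mul]
  exact congrArg (fun T : L →L[ℂ] L => T x) e

theorem lm_al (hj : HA j) (hα : Act j α U) (h : H) (a : A) (x : L) :
    lm hj (α h a) x = U h (lm hj a (U h⁻¹ x)) := by rw [U_lm hj hα, hα.app_inv]

theorem rm_al (hj : HA j) (hα : Act j α U) (h : H) (a : A) (x : L) :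
    rm hj (α h a) x = U h (rm hj a (U h⁻¹ x)) := by rw [U_rm hj hα, hα.app_inv]

theorem norm_lm_al (hj : HA j) (hα : Act j α U) (h : H) (a : A) (x : L) :
    ‖lm hj (α h a) x‖ ≤ ‖lm hj a‖ * ‖x‖ := by
  rw [lm_al hj hα, hα.iso]
  refine ((lm hj a).le_opNorm _).trans ?_
  rw [hα.iso]

theorem norm_rm_al (hj : HA j) (hα : Act j α U) (h : H) (a : A) (x : L) :
    ‖rm hj (α h a) x‖ ≤ ‖rm hj a‖ * ‖x‖ := by
  rw [rm_al hj hα, hα.iso]
  refine ((rm hj a).le_opNorm _).trans ?_
  rw [hα.iso]

/-- joint continuity of the unitary action -/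
theorem cont_U {X : Type*} [TopologicalSpace X] (hα : Act j α U) {g : X → H} {f : X → L}
    (hg : Continuous g) (hf : Continuous f) : Continuous fun x => U (g x) (f x) := by
  rw [continuous_iff_continuousAt]
  intro x₀
  have h1 : Tendsto (fun x => ‖f x - f x₀‖ + ‖U (g x) (f x₀) - U (g x₀) (f x₀)‖) (𝓝 x₀)
      (𝓝 0) := by
    have e1 : Tendsto (fun x => ‖f x - f x₀‖) (𝓝 x₀) (𝓝 0) := by
      rw [← tendsto_iff_norm_sub_tendsto_zero]
      exact hf.continuousAt
    have e2 : Tendsto (fun x => ‖U (g x) (f x₀) - U (g x₀) (f x₀)‖) (𝓝 x₀) (𝓝 0) := by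
      rw [← tendsto_iff_norm_sub_tendsto_zero]
      exact ((hα.cont (f x₀)).comp hg).continuousAt
    simpa using e1.add e2
  rw [ContinuousAt, tendsto_iff_norm_sub_tendsto_zero]
  refine squeeze_zero (fun _ => norm_nonneg _) (fun x => ?_) h1
  have e : U (g x) (f x) - U (g x₀) (f x₀) =
      U (g x) (f x - f x₀) + (U (g x) (f x₀) - U (g x₀) (f x₀)) := by
    rw [map_sub]; abel
  rw [e]
  refine (norm_add_le _ _).trans (le_of_eq ?_)
  rw [hα.iso]

variable [IsTopologicalGroup H]

theorem cont_lm (hj : HA j) (hα : Act j α U) {X : Type*} [TopologicalSpace X] {g : X → H}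
    {f : X → L} (hg : Continuous g) (a : A) (hf : Continuous f) :
    Continuous fun x => lm hj (α (g x) a) (f x) := by
  simp_rw [lm_al hj hα]
  exact cont_U hα hg ((lm hj a).continuous.comp (cont_U hα hg.inv hf))

theorem cont_rm (hj : HA j) (hα : Act j α U) {X : Type*} [TopologicalSpace X] {g : X → H}
    {f : X → L} (hg : Continuous g) (a : A) (hf : Continuous f) :
    Continuous fun x => rm hj (α (g x) a) (f x) := by
  simp_rw [rm_al hj hα]
  exact cont_U hα hg ((rm hj a).continuous.comp (cont_U hα hg.inv hf))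

end act

section itg

variable {H : Type*} [Group H] [TopologicalSpace H] [IsTopologicalGroup H]
  [SecondCountableTopology H] [MeasurableSpace H] [BorelSpace H] {μ : Measure H}
  {α : H → A → A} {U : H →* (L →L[ℂ] L)}

theorem cont_lm1 (hj : HA j) (hα : Act j α U) (a : A) (x : L) :
    Continuous fun h => lm hj (α h a) x :=
  cont_lm hj hα (g := fun h => h) continuous_id a continuous_const

theorem cont_rm1 (hj : HA j) (hα : Act j α U) (a : A) (x : L) :
    Continuous fun h => rm hj (α h a) x :=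
  cont_rm hj hα (g := fun h => h) continuous_id a continuous_const

theorem ofReal_of_self {x y z : L} {t : ℝ} (h : (t : ℂ) = ⟪x, x⟫_ℂ * ⟪y, y⟫_ℂ) :
    t = (‖x‖ * ‖y‖) ^ 2 := by
  rw [inner_self_eq_norm_sq_to_K, inner_self_eq_norm_sq_to_K] at h
  apply Complex.ofReal_injective
  rw [h, mul_pow]
  push_cast
  rfl

/-- an integral of squares as an `L²` norm -/
theorem eLpNorm_of_sq {f : H → L} (hf : Continuous f) (hi : Integrable (fun h => ‖f h‖ ^ 2) μ)
    {κ : ℝ} (hκ : 0 ≤ κ) (h : ∫ h, ‖f h‖ ^ 2 ∂μ = κ ^ 2) : eLpNorm f 2 μ ≤ ENNReal.ofReal κ := by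
  have hm : MemLp f 2 μ := (memLp_two_iff_integrable_sq_norm hf.aestronglyMeasurable).2 hi
  have h2 : ‖hm.toLp f‖ ^ 2 = κ ^ 2 := by
    have h3 : ⟪hm.toLp f, hm.toLp f⟫_ℂ = ((κ ^ 2 : ℝ) : ℂ) := by
      rw [MeasureTheory.L2.inner_def, ← h, ← integral_complex_ofReal]
      refine integral_congr_ae ?_
      filter_upwards [hm.coeFn_toLp] with y h1
      rw [h1, inner_self_eq_norm_sq_to_K]
      norm_cast
    rw [inner_self_eq_norm_sq_to_K] at h3
    apply Complex.ofReal_injective
    rw [← h3]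
    push_cast
    rfl
  have h4 : ‖hm.toLp f‖ = κ := (sq_eq_sq₀ (norm_nonneg _) hκ).1 h2
  rw [Lp.norm_toLp] at h4
  rw [← h4, ENNReal.ofReal_toReal hm.2.ne]

theorem sq_lm (hj : HA j) (hα : Act j α U) (hi : Itg j α μ) (a : A) :
    SqFam μ (fun h => lm hj (α h a)) ‖j a‖ := by
  refine sqFam_of_dense (S := Set.range j) hj.dense
    (fun x => cont_lm1 hj hα a x) ?_
  rintro _ ⟨b, rfl⟩
  refine eLpNorm_of_sq (cont_lm1 hj hα a (j b)) ?_ (by positivity) ?_
  · simp_rw [lm_j]
    exact hi.int a b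
  · have h1 := hi.eq a a b b
    have h2 : ∫ h, ⟪j (α h a * b), j (α h a * b)⟫_ℂ ∂μ =
        ((∫ h, ‖j (α h a * b)‖ ^ 2 ∂μ : ℝ) : ℂ) := by
      rw [← integral_complex_ofReal]
      refine integral_congr_ae (Eventually.of_forall fun h => ?_)
      simp only [inner_self_eq_norm_sq_to_K]
      norm_cast
    rw [h2] at h1
    simp_rw [lm_j]
    exact ofReal_of_self (z := j a) h1

theorem sq_rm (hj : HA j) (hα : Act j α U) (hi : Itg j α μ) (a : A) :
    SqFam μ (fun h => rm hj (α h a)) ‖j a‖ := by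
  refine sqFam_of_dense (S := Set.range j) hj.dense
    (fun x => cont_rm1 hj hα a x) ?_
  rintro _ ⟨b, rfl⟩
  have e : ∀ h, ‖j (b * α h a)‖ = ‖j (α h (star a) * star b)‖ := fun h => by
    rw [← hj.norm_star (b * α h a), star_mul, hα.st]
  refine eLpNorm_of_sq (cont_rm1 hj hα a (j b)) ?_ (by positivity) ?_
  · simp_rw [rm_j, e]
    exact hi.int _ _
  · have h1 := hi.eq (star a) (star a) (star b) (star b)
    have h2 : ∫ h, ⟪j (α h (star a) * star b), j (α h (star a) * star b)⟫_ℂ ∂μ =
        ((∫ h, ‖j (α h (star a) * star b)‖ ^ 2 ∂μ : ℝ) : ℂ) := by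
      rw [← integral_complex_ofReal]
      refine integral_congr_ae (Eventually.of_forall fun h => ?_)
      simp only [inner_self_eq_norm_sq_to_K]
      norm_cast
    rw [h2] at h1
    simp_rw [rm_j, e]
    rw [← hj.norm_star a, ← hj.norm_star b]
    exact ofReal_of_self (z := j a) h1

theorem int_lm (hj : HA j) (hα : Act j α U) (hi : Itg j α μ) (a b : A) (x z : L) :
    ∫ h, ⟪lm hj (α h a) x, lm hj (α h b) z⟫_ℂ ∂μ = ⟪j a, j b⟫_ℂ * ⟪x, z⟫_ℂ := by
  refine (sq_lm hj hα hi a).integral_eq_of_dense (S := Set.range j) hj.dense (norm_nonneg _)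
    (sq_lm hj hα hi b) (norm_nonneg _) _ ?_ x z
  rintro _ ⟨p, rfl⟩ _ ⟨q, rfl⟩
  simp_rw [lm_j]
  exact hi.eq a b p q

theorem int_rm (hj : HA j) (hα : Act j α U) (hi : Itg j α μ) (a b : A) (x z : L) :
    ∫ h, ⟪rm hj (α h a) x, rm hj (α h b) z⟫_ℂ ∂μ = ⟪j a, j b⟫_ℂ * ⟪x, z⟫_ℂ := by
  refine (sq_rm hj hα hi a).integral_eq_of_dense (S := Set.range j) hj.dense (norm_nonneg _)
    (sq_rm hj hα hi b) (norm_nonneg _) _ ?_ x z
  rintro _ ⟨p, rfl⟩ _ ⟨q, rfl⟩
  simp_rw [rm_j]
  have e : ∀ h, ⟪j (p * α h a), j (q * α h b)⟫_ℂ =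
      ⟪j (α h (star b) * star q), j (α h (star a) * star p)⟫_ℂ := fun h => by
    rw [← hj.tr, star_mul, star_mul, ← hα.st, ← hα.st]
  simp_rw [e]
  rw [hi.eq, hj.tr, hj.tr]

end itg

end ops

end Vale.Agent.P092.H565
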