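import Vale.Agent.P092.H565.PsiC
import Vale.Agent.P092.H720.TwA
import Vale.Agent.P092.H242.ThCPos
import Vale.Agent.P092.H100.Psi

/-!
P092 (helper565), project Q, block [Q-PSI]: the operator `Ψ` on the completion of the two sided
algebra with form `q x` satisfies the positivity condition `PosOp` of helper242; the sup bound.
-/

set_option linter.all false

open scoped InnerProductSpace Topology ENNReal NNReal
open Filter ContinuousLinearMap MeasureTheory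
open Vale.Agent.P092.H160
open Vale.Agent.P092.H156.Sm
open Vale.Agent.P092.H650

namespace Vale.Agent.P092.H565

open Vale.Agent.P092.H715.Q Vale.Agent.P092.H720 Vale.Agent.P092.H796
open Vale.Agent.P092.H100.QPsi
open Vale.Agent.P092.H242.ThC

variable {Γ X Y G G' H K : Type} [Group Γ] [Group X] [Group Y] [Group G] [Group G'] [Group H]
  [Countable X] [Countable Y]
  [TopologicalSpace G] [TopologicalSpace H] [IsTopologicalGroup G] [IsTopologicalGroup H]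
  [TopologicalSpace G'] [IsTopologicalGroup G']
  [MeasurableSpace G] [BorelSpace G] [SecondCountableTopology G]
  [MeasurableSpace G'] [BorelSpace G'] [SecondCountableTopology G']
  [MeasurableSpace H] [BorelSpace H] [SecondCountableTopology H]
  [NormedAddCommGroup K] [InnerProductSpace ℂ K] [CompleteSpace K]
  {V W : Γ →* (K →L[ℂ] K)} {f : X →* Γ} {ρ : X →* (K →L[ℂ] K)} {f' : Y →* Γ}
  {ρ' : Y →* (K →L[ℂ] K)} {ω : K} {ι' : X →* G'}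
  {p : Γ →* G} {κ : Γ →* H} {x : G' → K →L[ℂ] K}
  {μ : Measure G} {μ' : Measure G'} {ν : Measure H}
  [SFinite μ] [SFinite μ'] [μ.IsMulLeftInvariant] [μ'.IsMulLeftInvariant]
  [μ.IsMulRightInvariant] [SFinite ν] [ν.IsMulLeftInvariant] [ν.IsMulRightInvariant]

omit [SFinite μ'] [μ'.IsMulLeftInvariant] in
/-- the constant of the package -/
theorem ip_of_itg (D : Dbl V W f ρ f' ρ' ω) (hκ : DenseRange κ) (hp : DenseRange p)
    (h2 : F1 (κ.comp f') p ρ' W ω ν) {c : ℝ≥0}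
    (hI : Itg (jj D hκ p μ ν) (aT D hκ μ ν) (c • ν)) (hne : ∃ a, jj D hκ p μ ν a ≠ 0)
    (a b : TA D hκ p μ ν) :
    ip ω μ (a : G → K →L[ℂ] K) (b : G → K →L[ℂ] K) =
      (c : ℂ) * ip ω ν (fl κ V (a : G → K →L[ℂ] K)) (fl κ V (b : G → K →L[ℂ] K)) := by
  obtain ⟨u, hu⟩ := hne
  have h3 := hI.eq a b u u
  have h4 : ∀ s, ⟪jj D hκ p μ ν (aT D hκ μ ν s a * u), jj D hκ p μ ν (aT D hκ μ ν s b * u)⟫_ℂ =
      ∫ z, ⟪al κ V s a.1 z (u.1 z ω), al κ V s b.1 z (u.1 z ω)⟫_ℂ ∂μ := fun s =>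
    inner_jj D hκ p μ ν (aT D hκ μ ν s a * u) (aT D hκ μ ν s b * u)
  simp_rw [h4] at h3
  have h5 := (avg_al D hκ hp h2 a.2 b.2 u.2.smo.l2 u.2.smo.l2).2
  rw [integral_smul_nnreal_measure, h5, NNReal.smul_def, Complex.real_smul] at h3
  have h6 : ∫ z, ⟪u.1 z ω, u.1 z ω⟫_ℂ ∂μ = ⟪jj D hκ p μ ν u, jj D hκ p μ ν u⟫_ℂ :=
    (inner_jj D hκ p μ ν u u).symm
  rw [h6, inner_jj D hκ p μ ν a b] at h3
  have h7 : ⟪jj D hκ p μ ν u, jj D hκ p μ ν u⟫_ℂ ≠ 0 := inner_self_ne_zero.2 hu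
  rw [← mul_assoc] at h3
  exact (mul_right_cancel₀ h7 h3).symm

/-- **[Q-PSI]** the positivity condition for the operator with form `q x`. -/
theorem posOp_q (D : Dbl V W f ρ f' ρ' ω) (hκ : DenseRange κ) (hp : DenseRange p)
    (h1 : F1 (p.comp f) κ ρ V ω μ) (h2 : F1 (κ.comp f') p ρ' W ω ν) {c : ℝ≥0}
    {U : H →* (LL D hκ p μ ν →L[ℂ] LL D hκ p μ ν)}
    (hU : Act (jj D hκ p μ ν) (aT D hκ μ ν) U)
    (hI : Itg (jj D hκ p μ ν) (aT D hκ μ ν) (c • ν)) (hne : ∃ a, jj D hκ p μ ν a ≠ 0)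
    (hx : Fd ι' ρ x) (hx2 : L2 ω μ' x) {Ψ : LL D hκ p μ ν →L[ℂ] LL D hκ p μ ν}
    (hΨ : ∀ c b : TA D hκ p μ ν, ⟪jj D hκ p μ ν c, Ψ (jj D hκ p μ ν b)⟫_ℂ =
      q ω μ μ' x (c : G → K →L[ℂ] K) (b : G → K →L[ℂ] K)) :
    PosOp (jj D hκ p μ ν) (aT D hκ μ ν) (c • ν) Ψ (nsq ω μ' x).toReal := by
  intro J _ a y
  have hR := D.fr.reg
  have hJ := int_q_sum (μ' := μ') D hκ hp h1 h2 (Finset.univ : Finset J) (a := fun i => (a i).1)
    (y := fun i => (y i).1) (fun i => (a i).2.smo) (fun i => (y i).2) hx hx2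
  refine ⟨fun h => ∫ z, ‖∑ i, fP (a i).1 x (al κ V h (y i).1) z ω‖ ^ 2 ∂(μ.prod μ'), ?_, ?_, ?_, ?_⟩
  · exact hJ.1.smul_measure_nnreal
  · intro h
    exact integral_nonneg fun z => by positivity
  · refine Eventually.of_forall fun h => ?_
    have fy := fun i => fd_al D.fr hκ (y i).2.smo.toFd (y i).2.smo.acont h
    refine Eq.trans ?_ (q_sum hR h1 (Finset.univ : Finset J) (a := fun i => (a i).1)
      (y := fun i => al κ V h (y i).1) (fun i => (a i).2.smo) hx hx2 fy)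
    refine Finset.sum_congr rfl fun i _ => Finset.sum_congr rfl fun k _ => ?_
    rw [hΨ]
    congr 1
    refine funext fun t => ?_
    have fk := ((y k).2.adj D hκ).smo
    refine (al_mul D.fr hκ (y i).2.smo.acont fk.acont (y i).2.smo.bdd fk.bdd h t).trans ?_
    congr 1
    exact al_adj D.fr hκ (y k).2.smo.acont h t
  · refine le_of_eq ?_
    have h3 : ((∫ h, ∫ z, ‖∑ i, fP (a i).1 x (al κ V h (y i).1) z ω‖ ^ 2 ∂(μ.prod μ')
        ∂(c • ν) : ℝ) : ℂ) = (((nsq ω μ' x).toReal *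
          ∫ h, ‖Gs (jj D hκ p μ ν) (aT D hκ μ ν) a y h‖ ^ 2 ∂(c • ν) : ℝ) : ℂ) := by
      rw [integral_smul_nnreal_measure, NNReal.smul_def, smul_eq_mul, Complex.ofReal_mul, hJ.2,
        Complex.ofReal_mul, int_Gs (ha_jj D hκ p μ ν) hU hI]
      simp_rw [inner_jj, fun i k => ip_of_itg D hκ hp h2 hI hne (y i) (y k)]
      rw [Finset.mul_sum, Finset.mul_sum, Finset.mul_sum]
      refine Finset.sum_congr rfl fun i _ => ?_
      rw [Finset.mul_sum, Finset.mul_sum, Finset.mul_sum]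
      refine Finset.sum_congr rfl fun k _ => ?_
      ring
    exact_mod_cast h3

/-- **[Q-PSI]** the sup bound for the form `q x`. -/
theorem sup_q [LocallyCompactSpace H] [T2Space H] (D : Dbl V W f ρ f' ρ' ω) (hκ : DenseRange κ)
    (hp : DenseRange p) (h1 : F1 (p.comp f) κ ρ V ω μ) (h2 : F1 (κ.comp f') p ρ' W ω ν) {c : ℝ≥0}
    [(c • ν).IsHaarMeasure] {U : H →* (LL D hκ p μ ν →L[ℂ] LL D hκ p μ ν)}
    {R : G →* (LL D hκ p μ ν →L[ℂ] LL D hκ p μ ν)}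
    (P : Pk (jj D hκ p μ ν) (aT D hκ μ ν) U (c • ν) (rT D hκ hp μ ν) R μ)
    (faith : ∀ h : H, (∀ a, jj D hκ p μ ν (aT D hκ μ ν h a) = jj D hκ p μ ν a) → h = 1)
    (hx : Fd ι' ρ x) (hx2 : L2 ω μ' x) {Ψ : LL D hκ p μ ν →L[ℂ] LL D hκ p μ ν}
    (hΨ : ∀ c b : TA D hκ p μ ν, ⟪jj D hκ p μ ν c, Ψ (jj D hκ p μ ν b)⟫_ℂ =
      q ω μ μ' x (c : G → K →L[ℂ] K) (b : G → K →L[ℂ] K))
    (hR : ∀ y ξ, Ψ (R y ξ) = R y (Ψ ξ)) {J : Type*} [Fintype J] (b c : J → TA D hκ p μ ν) {C : ℝ}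
    (hC : ∀ t, ‖∑ k, ⟪jj D hκ p μ ν (c k), jj D hκ p μ ν (aT D hκ μ ν t (b k))⟫_ℂ‖ ≤ C) :
    ‖∑ k, q ω μ μ' x (c k : G → K →L[ℂ] K) (b k : G → K →L[ℂ] K)‖ ≤
      (nsq ω μ' x).toReal * C := by
  simp_rw [← hΨ]
  by_cases hne : ∃ a, jj D hκ p μ ν a ≠ 0
  · refine sup_bound P faith hne hR (posOp_q D hκ hp h1 h2 P.actH P.itgH hne hx hx2 hΨ)
      (fun k => jj D hκ p μ ν (b k)) (fun k => jj D hκ p μ ν (c k)) fun t => ?_
    simp only [P.actH.coe]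
    exact hC t
  · push Not at hne
    have h0 : 0 ≤ C := (norm_nonneg _).trans (hC 1)
    simp only [hne, inner_zero_left, Finset.sum_const_zero, norm_zero]
    exact mul_nonneg ENNReal.toReal_nonneg h0

/-- **[Q-PSI]** the sup bound for the form `q x`, without the operator. -/
theorem sup_q' [LocallyCompactSpace H] [T2Space H] (D : Dbl V W f ρ f' ρ' ω) (hκ : DenseRange κ)
    (hp : DenseRange p) (h1 : F1 (p.comp f) κ ρ V ω μ) (h2 : F1 (κ.comp f') p ρ' W ω ν) {c : ℝ≥0}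
    [(c • ν).IsHaarMeasure] {U : H →* (LL D hκ p μ ν →L[ℂ] LL D hκ p μ ν)}
    {R : G →* (LL D hκ p μ ν →L[ℂ] LL D hκ p μ ν)}
    (P : Pk (jj D hκ p μ ν) (aT D hκ μ ν) U (c • ν) (rT D hκ hp μ ν) R μ)
    (faith : ∀ h : H, (∀ a, jj D hκ p μ ν (aT D hκ μ ν h a) = jj D hκ p μ ν a) → h = 1)
    (hx : Fd ι' ρ x) (hx2 : L2 ω μ' x) {J : Type*} [Fintype J] (b c : J → TA D hκ p μ ν) {C : ℝ}
    (hC : ∀ t, ‖∑ k, ⟪jj D hκ p μ ν (c k), jj D hκ p μ ν (aT D hκ μ ν t (b k))⟫_ℂ‖ ≤ C) :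
    ‖∑ k, q ω μ μ' x (c k : G → K →L[ℂ] K) (b k : G → K →L[ℂ] K)‖ ≤
      (nsq ω μ' x).toReal * C := by
  obtain ⟨Ψ, hΨ, -⟩ := Vale.Agent.P092.H100Q.exists_psi D hκ μ μ' ν h1 hx hx2
  exact sup_q D hκ hp h1 h2 P faith hx hx2 hΨ
    (fun y ξ => Vale.Agent.P092.H100Q.psi_comm D hκ hp μ μ' ν hΨ P.actY y ξ) b c hC

end Vale.Agent.P092.H565
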