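import Vale.Agent.P092.H565.ThProd
import Vale.Agent.P092.H978.GlueC

/-!
P092, Theorem C (helper565): `Th` satisfies the hypotheses of the assembly; complete positivity and
the integral of the positive form of `Ψ = Th (star a) (star a)`.
-/

set_option linter.all false

open MeasureTheory Filter Topology ContinuousLinearMap
open scoped InnerProductSpace ENNReal

namespace Vale.Agent.P092.H565

open Vale.Agent.P092.H242.ThC

variable {A L : Type*} [NonUnitalRing A] [StarRing A] [Module ℂ A] [SMulCommClass ℂ A A]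
  [IsScalarTower ℂ A A] [NormedAddCommGroup L] [InnerProductSpace ℂ L] [CompleteSpace L]
  {j : A →ₗ[ℂ] L}
variable {Y : Type*} [Group Y] [TopologicalSpace Y] [IsTopologicalGroup Y]
  [SecondCountableTopology Y] [MeasurableSpace Y] [BorelSpace Y] {ν : Measure Y}
  {r : Y → A → A} {R : Y →* (L →L[ℂ] L)}
variable {H : Type*} [Group H] [TopologicalSpace H] [IsTopologicalGroup H]
  [SecondCountableTopology H] [MeasurableSpace H] [BorelSpace H] {μ : Measure H}
  {α : H → A → A} {U : H →* (L →L[ℂ] L)}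

theorem Th_ThL [StarModule ℂ A] [SFinite ν] [ν.IsMulLeftInvariant] [ν.IsInvInvariant]
    (P : Pk j α U μ r R ν) :
    Vale.Agent.P092.H978.ThL j α U r ν (Th P.ha P.actY P.itgY) where
  toThF := Th_ThF P.ha P.actY P.itgY
  form := fun b c x z => inner_Th_j P.ha P.actY P.itgY b c z x
  cov := fun h b c => by
    refine ContinuousLinearMap.ext fun x => ?_
    rw [ContinuousLinearMap.mul_apply, ContinuousLinearMap.mul_apply,
      Th_U P.ha P.actY P.itgY P.actH P.comm, P.actH.app_inv]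
  exch := fun b c x z => Th_exch P.ha P.actY P.itgY x z b c

section psi

variable (P : Pk j α U μ r R ν)

include P

/-- one entry of the positive form -/
theorem psi_entry (a x x' y y' : A) (h : H) (w : Y) :
    ⟪rm P.ha (α h y) (rm P.ha (r w a) (j x)), rm P.ha (α h y') (rm P.ha (r w a) (j x'))⟫_ℂ =
      ⟪j (α h (y * star y') * r w (star a)), j (r w (star a) * (star x * x'))⟫_ℂ := by
  have hj := P.ha
  simp only [rm_j]
  rw [P.actH.mul, P.actH.st, P.actY.st, mul_assoc x, hj.left]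
  have e1 : ⟪j (r w a * α h y), j (star x * (x' * r w a * α h y'))⟫_ℂ =
      ⟪j (r w a * α h y * star (α h y') * star (r w a)), j (star x * x')⟫_ℂ := by
    rw [hj.right (r w a * α h y * star (α h y')) (star (r w a)),
      hj.right (r w a * α h y) (star (α h y')), star_star, star_star]
    simp only [mul_assoc]
  rw [e1, mul_assoc (r w a), mul_assoc (r w a), hj.left, ← mul_assoc]

/-- the positive form of `Ψ = Th (star a) (star a)` as an integral of squares -/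
theorem psi_form {ι : Type*} (s : Finset ι) (a : A) (x y : ι → A) (h : H) :
    ∑ i ∈ s, ∑ k ∈ s, ⟪j (α h (y i * star (y k))),
      Th P.ha P.actY P.itgY (star a) (star a) (j (star (x i) * x k))⟫_ℂ =
      ((∫ w, ‖∑ i ∈ s, rm P.ha (α h (y i)) (rm P.ha (r w a) (j (x i)))‖ ^ 2 ∂ν : ℝ) : ℂ) := by
  have e1 : ∀ i k, ⟪j (α h (y i * star (y k))),
      Th P.ha P.actY P.itgY (star a) (star a) (j (star (x i) * x k))⟫_ℂ =
      ∫ w, ⟪rm P.ha (α h (y i)) (rm P.ha (r w a) (j (x i))),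
        rm P.ha (α h (y k)) (rm P.ha (r w a) (j (x k)))⟫_ℂ ∂ν := fun i k => by
    rw [inner_Th_j]
    refine integral_congr_ae (Eventually.of_forall fun w => ?_)
    simp only
    rw [psi_entry P]
  simp_rw [e1]
  have hint : ∀ i k, Integrable (fun w => ⟪rm P.ha (α h (y i)) (rm P.ha (r w a) (j (x i))),
        rm P.ha (α h (y k)) (rm P.ha (r w a) (j (x k)))⟫_ℂ) ν := fun i k => by
    have h1 : ∀ i, MemLp (fun w => rm P.ha (α h (y i)) (rm P.ha (r w a) (j (x i)))) 2 ν :=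
      fun i => (rm P.ha (α h (y i))).comp_memLp' ((sq_rm P.ha P.actY P.itgY a).memLp (j (x i)))
    exact integrable_inner_of_memLp (h1 i) (h1 k)
  rw [← integral_complex_ofReal]
  have e2 : ∀ w, ((‖∑ i ∈ s, rm P.ha (α h (y i)) (rm P.ha (r w a) (j (x i)))‖ ^ 2 : ℝ) : ℂ) =
      ∑ i ∈ s, ∑ k ∈ s, ⟪rm P.ha (α h (y i)) (rm P.ha (r w a) (j (x i))),
        rm P.ha (α h (y k)) (rm P.ha (r w a) (j (x k)))⟫_ℂ := fun w => by
    have e3 := inner_self_eq_norm_sq_to_K (𝕜 := ℂ)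
      (∑ i ∈ s, rm P.ha (α h (y i)) (rm P.ha (r w a) (j (x i))))
    rw [sum_inner] at e3
    simp_rw [inner_sum] at e3
    rw [e3]
    push_cast
    rfl
  simp_rw [e2]
  rw [integral_finset_sum _ fun i _ => integrable_finset_sum _ fun k _ => hint i k]
  refine Finset.sum_congr rfl fun i _ => ?_
  rw [integral_finset_sum _ fun k _ => hint i k]

theorem psi_memLp [SFinite μ] [SFinite ν] {ι : Type*} (s : Finset ι) (a : A) (x y : ι → A) :
    MemLp (fun p : Y × H => ∑ i ∈ s, rm P.ha (α p.2 (y i)) (rm P.ha (r p.1 a) (j (x i)))) 2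
      (ν.prod μ) := by
  refine memLp_finset_sum _ fun i _ => ?_
  refine memLp_prod (κ := ‖j (y i)‖) (κ' := ‖j a‖ * ‖j (x i)‖)
    (g := fun w => rm P.ha (r w a) (j (x i))) ?_ (norm_nonneg _) ?_
    ((sq_rm P.ha P.actY P.itgY a).bd (j (x i)))
  · exact (cont_rm P.ha P.actH continuous_snd (y i)
      (cont_rm P.ha P.actY continuous_fst a continuous_const)).aestronglyMeasurable
  · intro w
    have h1 := (sq_rm P.ha P.actH P.itgH (y i)).bd (rm P.ha (r w a) (j (x i)))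
    exact h1

/-- the total integral of the positive form -/
theorem psi_int [SFinite μ] [SFinite ν] {ι : Type*} (s : Finset ι) (a : A) (x y : ι → A) :
    Integrable (fun h => ∫ w, ‖∑ i ∈ s, rm P.ha (α h (y i)) (rm P.ha (r w a) (j (x i)))‖ ^ 2 ∂ν) μ ∧
    ((∫ h, ∫ w, ‖∑ i ∈ s, rm P.ha (α h (y i)) (rm P.ha (r w a) (j (x i)))‖ ^ 2 ∂ν ∂μ : ℝ) : ℂ) =
      ((‖j a‖ ^ 2 : ℝ) : ℂ) * ∑ i ∈ s, ∑ k ∈ s, ⟪j (x i), j (x k)⟫_ℂ * ⟪j (y i), j (y k)⟫_ℂ := by
  have h1 := (psi_memLp P s a x y).integrable_norm_pow two_ne_zero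
  refine ⟨h1.integral_prod_right, ?_⟩
  have hsq : ∀ (v : ι → L), ((‖∑ i ∈ s, v i‖ ^ 2 : ℝ) : ℂ) =
      ∑ i ∈ s, ∑ k ∈ s, ⟪v i, v k⟫_ℂ := fun v => by
    have e3 := inner_self_eq_norm_sq_to_K (𝕜 := ℂ) (∑ i ∈ s, v i)
    rw [sum_inner] at e3
    simp_rw [inner_sum] at e3
    rw [e3]
    push_cast
    rfl
  have h2 : ∫ h, ∫ w, ‖∑ i ∈ s, rm P.ha (α h (y i)) (rm P.ha (r w a) (j (x i)))‖ ^ 2 ∂ν ∂μ =
      ∫ w, ∫ h, ‖∑ i ∈ s, rm P.ha (α h (y i)) (rm P.ha (r w a) (j (x i)))‖ ^ 2 ∂μ ∂ν :=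
    integral_integral_swap
      (f := fun h w => ‖∑ i ∈ s, rm P.ha (α h (y i)) (rm P.ha (r w a) (j (x i)))‖ ^ 2) h1.swap
  have h3 : ∀ w, ((∫ h, ‖∑ i ∈ s, rm P.ha (α h (y i)) (rm P.ha (r w a) (j (x i)))‖ ^ 2 ∂μ : ℝ)
      : ℂ) = ∑ i ∈ s, ∑ k ∈ s, ⟪j (y i), j (y k)⟫_ℂ *
        ⟪rm P.ha (r w a) (j (x i)), rm P.ha (r w a) (j (x k))⟫_ℂ := fun w => by
    have hint : ∀ i k, Integrable (fun h => ⟪rm P.ha (α h (y i)) (rm P.ha (r w a) (j (x i))),
        rm P.ha (α h (y k)) (rm P.ha (r w a) (j (x k)))⟫_ℂ) μ := fun i k =>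
      (sq_rm P.ha P.actH P.itgH (y i)).integrable (sq_rm P.ha P.actH P.itgH (y k)) _ _
    rw [← integral_complex_ofReal]
    simp_rw [hsq]
    rw [integral_finset_sum _ fun i _ => integrable_finset_sum _ fun k _ => hint i k]
    refine Finset.sum_congr rfl fun i _ => ?_
    rw [integral_finset_sum _ fun k _ => hint i k]
    refine Finset.sum_congr rfl fun k _ => ?_
    rw [int_rm P.ha P.actH P.itgH]
  rw [h2, ← integral_complex_ofReal]
  simp_rw [h3]
  have hint : ∀ i k, Integrable (fun w => ⟪j (y i), j (y k)⟫_ℂ *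
      ⟪rm P.ha (r w a) (j (x i)), rm P.ha (r w a) (j (x k))⟫_ℂ) ν := fun i k =>
    ((sq_rm P.ha P.actY P.itgY a).integrable (sq_rm P.ha P.actY P.itgY a) _ _).const_mul _
  rw [integral_finset_sum _ fun i _ => integrable_finset_sum _ fun k _ => hint i k,
    Finset.mul_sum]
  refine Finset.sum_congr rfl fun i _ => ?_
  rw [integral_finset_sum _ fun k _ => hint i k, Finset.mul_sum]
  refine Finset.sum_congr rfl fun k _ => ?_
  rw [integral_const_mul, int_rm P.ha P.actY P.itgY, inner_self_eq_norm_sq_to_K (𝕜 := ℂ) (j a)]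
  push_cast
  change _ * (((‖j a‖ : ℝ) : ℂ) ^ 2 * _) = _
  ring

/-- `Ψ` is determined by `Th`: `⟪x, Th b c x⟫ = ⟪c, Ψ b⟫` for `x = j a`, `Ψ = Th (star a) (star a)` -/
theorem psi_eq [ν.IsInvInvariant] (a b c : A) :
    ⟪j a, Th P.ha P.actY P.itgY b c (j a)⟫_ℂ =
      ⟪j c, Th P.ha P.actY P.itgY (star a) (star a) (j b)⟫_ℂ :=
  Th_exch P.ha P.actY P.itgY a a b c

end psi

end Vale.Agent.P092.H565
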