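import Vale.Agent.P092.H565.Theta
import Vale.Agent.P092.H978.Prod

/-!
P092, Theorem C (helper565): the product formula
`Th b c * Th b' c' = ∫ Th (b * r_w b') (c * r_w c') dw`.
-/

set_option linter.all false

open MeasureTheory Filter Topology ContinuousLinearMap
open scoped InnerProductSpace ENNReal

namespace Vale.Agent.P092.H565

open Vale.Agent.P092.H242.ThC

section l2

variable {X Y L : Type*} [MeasurableSpace X] [MeasurableSpace Y]
  [NormedAddCommGroup L] [InnerProductSpace ℂ L] {μ : Measure X} {ν : Measure Y}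

theorem integrable_inner_of_memLp {f g : X → L} (hf : MemLp f 2 μ) (hg : MemLp g 2 μ) :
    Integrable (fun x => ⟪f x, g x⟫_ℂ) μ := by
  refine (MeasureTheory.L2.integrable_inner (𝕜 := ℂ) (hf.toLp f) (hg.toLp g)).congr ?_
  filter_upwards [hf.coeFn_toLp, hg.coeFn_toLp] with x h1 h2
  rw [h1, h2]

theorem lintegral_sq_le {f : X → L} {κ : ℝ} (h : eLpNorm f 2 μ ≤ ENNReal.ofReal κ) :
    ∫⁻ x, ‖f x‖ₑ ^ 2 ∂μ ≤ ENNReal.ofReal κ ^ 2 := by
  have h1 : eLpNorm f 2 μ ^ 2 = ∫⁻ x, ‖f x‖ₑ ^ 2 ∂μ := by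
    rw [eLpNorm_eq_lintegral_rpow_enorm_toReal (by norm_num) (by norm_num)]
    simp only [ENNReal.toReal_ofNat, one_div]
    rw [← ENNReal.rpow_natCast, ← ENNReal.rpow_mul]
    norm_num
  rw [← h1]
  gcongr

/-- square integrability over a product from a bound on the slices -/
theorem memLp_prod [SFinite ν] [SFinite μ] {f : X × Y → L} (hf : AEStronglyMeasurable f (μ.prod ν))
    {κ κ' : ℝ} {g : X → L} (hκ : 0 ≤ κ)
    (h : ∀ x, eLpNorm (fun y => f (x, y)) 2 ν ≤ ENNReal.ofReal (κ * ‖g x‖))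
    (hg : eLpNorm g 2 μ ≤ ENNReal.ofReal κ') : MemLp f 2 (μ.prod ν) := by
  refine ⟨hf, (eLpNorm_lt_top_iff_lintegral_rpow_enorm_lt_top two_ne_zero
    ENNReal.ofNat_ne_top).2 ?_⟩
  have e : ∫⁻ z, ‖f z‖ₑ ^ (2 : ℝ) ∂(μ.prod ν) = ∫⁻ x, ∫⁻ y, ‖f (x, y)‖ₑ ^ 2 ∂ν ∂μ := by
    have h1 : ∀ z, ‖f z‖ₑ ^ (2 : ℝ) = ‖f z‖ₑ ^ 2 := fun z => by
      rw [← ENNReal.rpow_natCast]; norm_num
    simp_rw [h1]
    rw [lintegral_prod _ (hf.enorm.pow_const 2)]
  simp only [ENNReal.toReal_ofNat]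
  rw [e]
  calc ∫⁻ x, ∫⁻ y, ‖f (x, y)‖ₑ ^ 2 ∂ν ∂μ ≤ ∫⁻ x, ENNReal.ofReal κ ^ 2 * ‖g x‖ₑ ^ 2 ∂μ := by
        refine lintegral_mono fun x => (lintegral_sq_le (h x)).trans (le_of_eq ?_)
        rw [← mul_pow, ENNReal.ofReal_mul hκ, ofReal_norm_eq_enorm]
    _ = ENNReal.ofReal κ ^ 2 * ∫⁻ x, ‖g x‖ₑ ^ 2 ∂μ := lintegral_const_mul' _ _ (by simp)
    _ ≤ ENNReal.ofReal κ ^ 2 * ENNReal.ofReal κ' ^ 2 := by
        gcongr
        exact lintegral_sq_le hg
    _ < ⊤ := ENNReal.mul_lt_top (by simp) (by simp)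

end l2

variable {A L : Type*} [NonUnitalRing A] [StarRing A] [Module ℂ A] [SMulCommClass ℂ A A]
  [IsScalarTower ℂ A A] [NormedAddCommGroup L] [InnerProductSpace ℂ L] [CompleteSpace L]
  {j : A →ₗ[ℂ] L}
variable {Y : Type*} [Group Y] [TopologicalSpace Y] [IsTopologicalGroup Y]
  [SecondCountableTopology Y] [MeasurableSpace Y] [BorelSpace Y] {ν : Measure Y}
  {r : Y → A → A} {R : Y →* (L →L[ℂ] L)}

variable (hj : HA j) (hr : Act j r R) (hi : Itg j r ν)

include hj hr hi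

theorem rm_pair (c c' : A) (y w : Y) (z : L) :
    rm hj (r y (c * r w c')) z = rm hj (r (y * w) c') (rm hj (r y c) z) := by
  rw [hr.mul, hr.act, rm_mul]
  rfl

theorem lm_pair (b b' : A) (y w : Y) (x : L) :
    lm hj (r y (b * r w b')) x = lm hj (r y b) (lm hj (r (y * w) b') x) := by
  rw [hr.mul, hr.act, lm_mul]
  rfl

theorem memLp_rm_pair [SFinite ν] [ν.IsMulLeftInvariant] (c c' : A) (z : L) :
    MemLp (fun p : Y × Y => rm hj (r p.1 (c * r p.2 c')) z) 2 (ν.prod ν) := by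
  refine memLp_prod (κ := ‖j c'‖) (κ' := ‖j c‖ * ‖z‖) (g := fun y => rm hj (r y c) z) ?_
    (norm_nonneg _) ?_ ((sq_rm hj hr hi c).bd z)
  · simp_rw [rm_pair hj hr hi]
    exact (cont_rm hj hr (continuous_fst.mul continuous_snd) c'
      (cont_rm hj hr continuous_fst c continuous_const)).aestronglyMeasurable
  · intro y
    simp only
    simp_rw [rm_pair hj hr hi]
    have h1 := (sq_rm hj hr hi c').bd (rm hj (r y c) z)
    have h2 : eLpNorm (fun w => rm hj (r (y * w) c') (rm hj (r y c) z)) 2 ν =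
        eLpNorm (fun w => rm hj (r w c') (rm hj (r y c) z)) 2 ν :=
      eLpNorm_comp_measurePreserving (g := fun w => rm hj (r w c') (rm hj (r y c) z))
        (cont_rm1 hj hr c' _).aestronglyMeasurable (measurePreserving_mul_left ν y)
    rw [h2]
    exact h1

theorem memLp_lm_pair [SFinite ν] [ν.IsMulLeftInvariant] (b b' : A)
    (x : L) : MemLp (fun p : Y × Y => lm hj (r p.1 (b * r p.2 b')) x) 2 (ν.prod ν) := by
  have key : MemLp (fun p : Y × Y => lm hj (r p.2 (b * r p.1 b')) x) 2 (ν.prod ν) := by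
    refine memLp_prod (κ := ‖x‖) (κ' := ‖j b'‖ * ‖j b‖) (g := fun w => rm hj (r w b') (j b)) ?_
      (norm_nonneg _) ?_ ((sq_rm hj hr hi b').bd (j b))
    · simp_rw [lm_pair hj hr hi]
      exact (cont_lm hj hr continuous_snd b
        (cont_lm hj hr (continuous_snd.mul continuous_fst) b'
          continuous_const)).aestronglyMeasurable
    · intro w
      simp only
      have h1 := (sq_lm hj hr hi (b * r w b')).bd x
      rw [rm_j, mul_comm]
      exact h1
  exact key.comp_measurePreserving (Measure.measurePreserving_swap (μ := ν) (ν := ν))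

theorem prod_integrable [SFinite ν] [ν.IsMulLeftInvariant] (b b' c c' : A) (z x : L) :
    Integrable (fun p : Y × Y =>
      ⟪rm hj (r p.1 (c * r p.2 c')) z, lm hj (r p.1 (b * r p.2 b')) x⟫_ℂ) (ν.prod ν) :=
  integrable_inner_of_memLp (memLp_rm_pair hj hr hi c c' z) (memLp_lm_pair hj hr hi b b' x)

/-- **the product formula** -/
theorem Th_prod [SFinite ν] [ν.IsMulLeftInvariant] (b c b' c' : A) (x z : L) :
    ⟪z, Th hj hr hi b c (Th hj hr hi b' c' x)⟫_ℂ =
      ∫ w, ⟪z, Th hj hr hi (b * r w b') (c * r w c') x⟫_ℂ ∂ν := by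
  have h1 := integral_integral_swap
    (f := fun y w => ⟪rm hj (r y (c * r w c')) z, lm hj (r y (b * r w b')) x⟫_ℂ)
    (prod_integrable hj hr hi b b' c c' z x)
  simp_rw [inner_Th hj hr hi]
  rw [← h1]
  refine integral_congr_ae (Eventually.of_forall fun y => ?_)
  simp only
  rw [inner_lm' hj, inner_Th, ← integral_mul_left_eq_self
    (fun y' => ⟪rm hj (r y' c') (lm hj (star (r y b)) (rm hj (r y c) z)),
      lm hj (r y' b') x⟫_ℂ) y]
  refine integral_congr_ae (Eventually.of_forall fun w => ?_)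
  simp only
  rw [rm_pair hj hr hi, lm_pair hj hr hi, ← lm_rm hj, inner_lm hj, star_star]

/-- the structure of `Th` used in the representation of `C₀(H)` -/
theorem Th_ThF [StarModule ℂ A] [SFinite ν] [ν.IsMulLeftInvariant] :
    Vale.Agent.P092.H978.ThF j r ν (Th hj hr hi) where
  add_left := Th_add_left hj hr hi
  smul_left := Th_smul_left hj hr hi
  add_right := Th_add_right hj hr hi
  smul_right := Th_smul_right hj hr hi
  bdd := norm_Th_le hj hr hi
  adj := Th_star hj hr hi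
  prod := Th_prod hj hr hi

end Vale.Agent.P092.H565
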